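import Vale.Agent.P221.H72.Statement2
import Vale.Agent.P251.S.TelMap

/-!
# P221: spectra on which `p` is invertible are acyclic for the telescopes of a Moore tower
-/

open CategoryTheory MonoidalCategory Limits Pretriangulated

set_option linter.unusedSectionVars false

namespace Vale.Agent.P221

open Vale.Agent.P251.St Vale.Agent.P251.St.SHCat Vale.Agent.P257.St
open Vale.Agent.P251.S (IsTel IsTel.tel Tel dist_whiskerRight)

variable {T : SHCat}

/-- the tensor product with a zero object -/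
theorem isZero_whisker {X A : T.C} (h : IsZero X) : IsZero (X ⊗ A) := by
  rw [IsZero.iff_id_eq_zero] at h ⊢
  rw [← id_whiskerRight, h, MonoidalPreadditive.zero_whiskerRight]

/-- `p` is invertible on `A`: the cofibre of `p` on the unit is killed by `A` -/
theorem isZero_moore {p : ℕ} {V : T.C} {i : Hom T.one V} {q : Hom V (sus T.one)}
    (D : Dist (zmul (p : ℤ) (ident T.one)) i q) {A : T.C}
    (hA : IsIso (zmul (p : ℤ) (ident A))) : IsZero (V ⊗ A) := by
  have h1 := dist_whiskerRight A D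
  have h2 : IsIso ((zmul (p : ℤ) (ident T.one)) ▷ A) := by
    have h3 : (zmul (p : ℤ) (ident T.one)) ▷ A =
        (λ_ A).hom ≫ (zmul (p : ℤ) (ident A)) ≫ (λ_ A).inv := by
      change ((p : ℤ) • 𝟙 (𝟙_ T.C)) ▷ A = (λ_ A).hom ≫ ((p : ℤ) • 𝟙 A) ≫ (λ_ A).inv
      have h4 : ((p : ℤ) • 𝟙 (𝟙_ T.C)) ▷ A = (p : ℤ) • 𝟙 (𝟙_ T.C ⊗ A) := by
        rw [← id_whiskerRight]
        exact (tensorRight A).map_zsmul ..
      rw [h4, Preadditive.zsmul_comp, Category.id_comp, Preadditive.comp_zsmul,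
        Iso.hom_inv_id]
    rw [h3]
    infer_instance
  exact (Triangle.isZero₃_iff_isIso₁ _ h1).2 h2

theorem acyclic_of_inverted {K : ℕ → T.C} {p n : ℕ} {V W : ℕ → T.C} {d : ℕ → ℤ}
    {w : ∀ j : ℕ, Hom ((V j)⟦d j⟧) (V j)} {E : T.C} (hM : IsMooreTower K p n V W d w E) {A : T.C}
    (hA : IsIso (zmul (p : ℤ) (ident A))) : Acyclic E A := by
  have hV : ∀ j : ℕ, j ≤ n → IsZero (V (j + 1) ⊗ A) := by
    intro j
    induction j with
    | zero =>
      intro _
      obtain ⟨i, q, D⟩ := hM.moore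
      exact isZero_moore D hA
    | succ j ih =>
      intro hj
      have h0 := ih (by omega)
      obtain ⟨g, h, D⟩ := hM.step (j + 1) (by omega) hj
      have h1 := dist_whiskerRight A D
      have h2 : IsZero (((V (j + 1))⟦d (j + 1)⟧) ⊗ A) :=
        ((shiftFunctor T.C (d (j + 1))).map_isZero h0).of_iso
          (((tensorRight A).commShiftIso (d (j + 1))).app (V (j + 1)))
      have h3 : IsIso (w (j + 1) ▷ A) := h2.isIso h0 _
      exact (Triangle.isZero₃_iff_isIso₁ _ h1).2 h3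
  rw [hM.cls]
  intro j hj1 hjn
  obtain ⟨ι, hι⟩ := hM.tel j hj1 hjn
  have h0 : IsZero (V j ⊗ A) := by
    obtain ⟨j', rfl⟩ : ∃ j', j = j' + 1 := ⟨j - 1, by omega⟩
    exact hV j' (by omega)
  have key : IsZero ((hι.whiskerRight A).tel).obj := by
    refine Tel.isZero_of_proZero _ fun m => ⟨0, ?_⟩
    have h2 : IsZero (((V j)⟦-((m : ℤ) * d j)⟧) ⊗ A) :=
      ((shiftFunctor T.C (-((m : ℤ) * d j))).map_isZero h0).of_iso
        (((tensorRight A).commShiftIso (-((m : ℤ) * d j))).app (V j))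
    exact h2.eq_of_src _ _
  exact (IsZero.iff_id_eq_zero _).1 key

theorem pComplete_of_local {K : ℕ → T.C} {p n : ℕ} {V W : ℕ → T.C} {d : ℕ → ℤ}
    {w : ∀ j : ℕ, Hom ((V j)⟦d j⟧) (V j)} {E : T.C} (hM : IsMooreTower K p n V W d w E) {Z : T.C}
    (hZ : ∀ A : T.C, Acyclic E A → ∀ g : Hom A Z, g = 0) : PComplete p Z :=
  fun W hW f => hZ W (acyclic_of_inverted hM hW) f

end Vale.Agent.P221
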