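import Vale.Agent.P221.H72.Trunc
import Mathlib.Data.Set.Finite.Basic

/-!
# P221: spectra whose homotopy groups are finite `p`-groups
-/

open CategoryTheory MonoidalCategory Limits Pretriangulated
open Vale.Agent.P251.T Vale.Agent.P251.S Vale.Agent.P251.H Vale.Agent.P251.M
  Vale.Agent.P251.I Vale.Agent.P251.X

universe v u

set_option linter.unusedSectionVars false

namespace Vale.Agent.P221

variable {T : Type u} [Category.{v} T] [Preadditive T] [HasZeroObject T]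
    [HasShift T ℤ] [∀ n : ℤ, (shiftFunctor T n).Additive] [Pretriangulated T] [IsTriangulated T]
    [MonoidalCategory T] [SymmetricCategory T] [TensorTriangulated T] [MonoidalClosed T]
    [HasCoproducts.{0} T] [HasProducts.{0} T] [StableCat T] {p : ℕ}

theorem FT.retract {X Y : T} (i : X ⟶ Y) (r : Y ⟶ X) (h : i ≫ r = 𝟙 X) (hY : FT p Y) :
    FT p X := by
  intro k
  constructor
  · have := (hY k).1
    refine Finite.of_injective (fun x : (𝟙_ T)⟦k⟧ ⟶ X => x ≫ i) fun x y hxy => ?_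
    have h1 := congrArg (· ≫ r) hxy
    simpa only [Category.assoc, h, Category.comp_id] using h1
  · intro x
    obtain ⟨N, hN⟩ := (hY k).2 (x ≫ i)
    refine ⟨N, ?_⟩
    have h1 : (((p : ℤ) ^ N) • (x ≫ i)) ≫ r = 0 := by rw [hN, zero_comp]
    rwa [Preadditive.zsmul_comp, Category.assoc, h, Category.comp_id] at h1

theorem FT.of_iso {X Y : T} (e : X ≅ Y) (hX : FT p X) : FT p Y :=
  hX.retract e.inv e.hom e.inv_hom_id

theorem FT.shift {X : T} (hX : FT p X) (m : ℤ) : FT p (X⟦m⟧) := by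
  intro k
  let e := (shiftFunctorAdd' T (k - m) m k (by ring)).app (𝟙_ T)
  constructor
  · have := (hX (k - m)).1
    refine Finite.of_surjective
      (fun x : (𝟙_ T)⟦k - m⟧ ⟶ X => (e.hom ≫ x⟦m⟧' : (𝟙_ T)⟦k⟧ ⟶ X⟦m⟧)) fun z => ?_
    obtain ⟨x, rfl⟩ := sphere_shift (l := k - m) (by ring) z
    exact ⟨x, rfl⟩
  · intro z
    obtain ⟨x, rfl⟩ := sphere_shift (l := k - m) (by ring) z
    obtain ⟨N, hN⟩ := (hX (k - m)).2 x
    refine ⟨N, ?_⟩
    rw [← Preadditive.comp_zsmul, ← Functor.map_zsmul, hN, Functor.map_zero, comp_zero]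

theorem FT.of_shift {X : T} (m : ℤ) (hX : FT p (X⟦m⟧)) : FT p X :=
  (hX.shift (-m)).of_iso (shiftShiftNeg X m)

theorem FT.ext {X Y Z : T} {f : X ⟶ Y} {g : Y ⟶ Z} {h : Z ⟶ X⟦(1 : ℤ)⟧}
    (D : Dist f g h) (hX : FT p X) (hZ : FT p Z) : FT p Y := by
  intro k
  constructor
  · have h1 := (hX k).1
    have h2 := (hZ k).1
    have h3 : (Set.univ : Set ((𝟙_ T)⟦k⟧ ⟶ Y)).Finite := by
      refine Set.Finite.of_finite_fibers (fun y : (𝟙_ T)⟦k⟧ ⟶ Y => y ≫ g) (Set.toFinite _) ?_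
      rintro _ ⟨y₀, -, rfl⟩
      refine (Set.finite_range (fun x : (𝟙_ T)⟦k⟧ ⟶ X => y₀ + x ≫ f)).subset ?_
      rintro y ⟨-, hy⟩
      change y ≫ g = y₀ ≫ g at hy
      obtain ⟨x, hx⟩ := D.lift₂ (y - y₀) (by rw [Preadditive.sub_comp, hy, sub_self])
      exact ⟨x, by change y₀ + x ≫ f = y; rw [hx]; abel⟩
    exact Set.finite_univ_iff.1 h3
  · intro y
    obtain ⟨N, hN⟩ := (hZ k).2 (y ≫ g)
    obtain ⟨x, hx⟩ := D.lift₂ (((p : ℤ) ^ N) • y) (by rw [Preadditive.zsmul_comp, hN])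
    obtain ⟨M, hM⟩ := (hX k).2 x
    refine ⟨M + N, ?_⟩
    rw [pow_add, mul_smul, ← hx, ← Preadditive.zsmul_comp, hM, zero_comp]

theorem FT.cof {X Y Z : T} {f : X ⟶ Y} {g : Y ⟶ Z} {h : Z ⟶ X⟦(1 : ℤ)⟧}
    (D : Dist f g h) (hX : FT p X) (hY : FT p Y) : FT p Z :=
  FT.ext D.rot hY (hX.shift 1)

theorem FT.fib {X Y Z : T} {f : X ⟶ Y} {g : Y ⟶ Z} {h : Z ⟶ X⟦(1 : ℤ)⟧}
    (D : Dist f g h) (hY : FT p Y) (hZ : FT p Z) : FT p X :=
  .of_shift 1 (FT.ext D.rot.rot hZ (hY.shift 1))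

theorem FT.zero {X : T} (hX : IsZero X) : FT p X := fun k =>
  ⟨Finite.of_injective (fun _ => ()) fun _ _ _ => hX.eq_of_tgt _ _,
    fun _ => ⟨0, hX.eq_of_tgt _ _⟩⟩

end Vale.Agent.P221
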