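import Vale.Agent.P221.H72.Comp2
import Vale.Agent.P221.H72.FTlem

/-!
# P221: `p`-complete objects with finite homotopy modulo `p` form a class closed under cofibres,
retracts and connective covers
-/

open CategoryTheory MonoidalCategory Limits Pretriangulated
open Vale.Agent.P251.T Vale.Agent.P251.S Vale.Agent.P251.H Vale.Agent.P251.M
  Vale.Agent.P251.I Vale.Agent.P251.X

universe v u

set_option linter.unusedSectionVars false

namespace Vale.Agent.P221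

variable {T : Type u} [Category.{v} T] [Preadditive T] [HasZeroObject T]
    [HasShift T ℤ] [∀ n : ℤ, (shiftFunctor T n).Additive] [Pretriangulated T] [IsTriangulated T]
    [MonoidalCategory T] [SymmetricCategory T] [TensorTriangulated T] [MonoidalClosed T]
    [HasCoproducts.{0} T] [HasProducts.{0} T] [StableCat T]

namespace H708C

section

variable {p : ℕ} {M : T} {i : 𝟙_ T ⟶ M} {q : M ⟶ (𝟙_ T)⟦(1 : ℤ)⟧}

/-- the reduction `X ⟶ M ⊗ X` -/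
def red (i : 𝟙_ T ⟶ M) (X : T) : X ⟶ M ⊗ X := (λ_ X).inv ≫ (i ▷ X)

theorem red_natural {X Y : T} (f : X ⟶ Y) : red i X ≫ (M ◁ f) = f ≫ red i Y := by
  unfold red
  rw [Category.assoc, ← whisker_exchange, leftUnitor_inv_naturality_assoc]

theorem exists_dist_red (DM : Dist ((p : ℤ) • 𝟙 (𝟙_ T)) i q) (X : T) :
    ∃ w : M ⊗ X ⟶ X⟦(1 : ℤ)⟧, Dist ((p : ℤ) • 𝟙 X) (red i X) w := by
  have D1 := dist_whiskerRight X DM
  have h1 : ((p : ℤ) • 𝟙 (𝟙_ T)) ▷ X = (p : ℤ) • 𝟙 (𝟙_ T ⊗ X) := by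
    have h2 := (tensorRight X).map_zsmul (f := 𝟙 (𝟙_ T)) (r := (p : ℤ))
    change ((p : ℤ) • 𝟙 (𝟙_ T)) ▷ X = (p : ℤ) • ((𝟙 (𝟙_ T)) ▷ X) at h2
    rw [h2, id_whiskerRight]
  obtain ⟨w1, hw1⟩ : ∃ w1 : M ⊗ X ⟶ (𝟙_ T ⊗ X)⟦(1 : ℤ)⟧,
      Triangle.mk (((p : ℤ) • 𝟙 (𝟙_ T)) ▷ X) (i ▷ X) w1 ∈ distTriang T := ⟨_, D1⟩
  refine ⟨w1 ≫ (λ_ X).hom⟦(1 : ℤ)⟧', isomorphic_distinguished _ hw1 _ ?_⟩
  refine Triangle.isoMk _ _ (λ_ X).symm (λ_ X).symm (Iso.refl _) ?_ ?_ ?_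
  · change ((p : ℤ) • 𝟙 X) ≫ (λ_ X).inv = (λ_ X).inv ≫ (((p : ℤ) • 𝟙 (𝟙_ T)) ▷ X)
    rw [h1, Preadditive.zsmul_comp, Category.id_comp, Preadditive.comp_zsmul, Category.comp_id]
  · change red i X ≫ 𝟙 _ = (λ_ X).inv ≫ (i ▷ X)
    rw [Category.comp_id]
    rfl
  · change (w1 ≫ (λ_ X).hom⟦(1 : ℤ)⟧') ≫ (λ_ X).inv⟦(1 : ℤ)⟧' = 𝟙 _ ≫ w1
    rw [Category.assoc, ← Functor.map_comp, Iso.hom_inv_id, CategoryTheory.Functor.map_id,
      Category.comp_id, Category.id_comp]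

end

end H708C

open H708C

/-- `X` is `p`-complete and `π_*(M ⊗ X)` is a finite `p`-group in each degree -/
def FG (p : ℕ) (M X : T) : Prop := PComp p X ∧ FT p (M ⊗ X)

theorem cls_fg [LocallySmall.{0} T] (F : SpaceFunctor T) {p : ℕ} {M : T} {i : 𝟙_ T ⟶ M}
    {q : M ⟶ (𝟙_ T)⟦(1 : ℤ)⟧} (DM : Dist ((p : ℤ) • 𝟙 (𝟙_ T)) i q) : Cls (FG (T := T) p M) where
  zero {X} hX := ⟨fun W _ f => hX.eq_of_tgt _ _, FT.zero (by
    rw [IsZero.iff_id_eq_zero] at hX ⊢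
    rw [← whiskerLeft_id, hX, MonoidalPreadditive.whiskerLeft_zero])⟩
  shift {X} m hX := ⟨hX.1.shift' m,
    FT.of_iso (((tensorLeft M).commShiftIso m).app X).symm (hX.2.shift m)⟩
  cof {X Y Z f g h} D hX hY := by
    refine ⟨?_, FT.cof (dist_whiskerLeft M D) hX.2 hY.2⟩
    intro W hW t
    obtain ⟨s, rfl⟩ := D.lift₃ t (hX.1.shift' 1 W hW _)
    rw [hY.1 W hW s, zero_comp]
  retract {X Y} i r hir hY := by
    refine ⟨?_, FT.retract (M ◁ i) (M ◁ r) (by rw [← whiskerLeft_comp, hir, whiskerLeft_id]) hY.2⟩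
    intro W hW t
    have h1 : t = (t ≫ i) ≫ r := by rw [Category.assoc, hir, Category.comp_id]
    rw [h1, hY.1 W hW (t ≫ i), zero_comp]
  cover {n A X X' a f w} D hA hX' hX := by
    refine ⟨(pcomp_cover F D hA hX' hX.1).1, ?_⟩
    have hAc : Conn n A := conn_of_bigCell F hA
    obtain ⟨wA, DA⟩ := exists_dist_red DM A
    obtain ⟨wX, DX⟩ := exists_dist_red DM X'
    have h1 : Conn n (M ⊗ A) := Conn.ext₃ _ DA hAc (hAc.mono (by omega))
    have h2 : Above (n + 1) (M ⊗ X') := by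
      intro k hk z
      obtain ⟨l, rfl⟩ : ∃ l : ℤ, k = l + 1 := ⟨k - 1, by ring⟩
      obtain ⟨x, -, hz⟩ := les DX (l := l) rfl z
      obtain ⟨y, rfl⟩ := hz (hX' l (by omega) x)
      rw [hX' (l + 1) (by omega) y, zero_comp]
    have DMa := dist_whiskerLeft M D
    intro k
    rcases lt_or_ge k n with hk | hk
    · exact ⟨Finite.of_injective (fun _ => ()) fun x y _ => by rw [h1 k hk x, h1 k hk y],
        fun x => ⟨0, by rw [h1 k hk x, smul_zero]⟩⟩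
    · have hinj : ∀ x : (𝟙_ T)⟦k⟧ ⟶ M ⊗ A, x ≫ (M ◁ a) = 0 → x = 0 := fun x hx =>
        inj_of_above DMa h2 (by omega) x hx
      constructor
      · have := (hX.2 k).1
        refine Finite.of_injective (fun x : (𝟙_ T)⟦k⟧ ⟶ M ⊗ A => x ≫ (M ◁ a)) fun x y hxy => ?_
        rw [← sub_eq_zero]
        exact hinj _ (by rw [Preadditive.sub_comp, sub_eq_zero]; exact hxy)
      · intro x
        obtain ⟨N, hN⟩ := (hX.2 k).2 (x ≫ (M ◁ a))
        exact ⟨N, hinj _ (by rw [Preadditive.zsmul_comp, hN])⟩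

end Vale.Agent.P221
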