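import Vale.Agent.P221.H72.Defs2

/-!
# P221: a `p`-complete spectrum has no `p`-divisible homotopy group
-/

open CategoryTheory MonoidalCategory Limits Pretriangulated
open Vale.Agent.P251.T Vale.Agent.P251.S Vale.Agent.P251.H Vale.Agent.P251.M
  Vale.Agent.P251.I Vale.Agent.P251.X

universe v u

set_option linter.unusedSectionVars false

namespace Vale.Agent.P221

variable {T : Type u} [Category.{v} T] [Preadditive T] [HasZeroObject T]
    [HasShift T ℤ] [∀ n : ℤ, (shiftFunctor T n).Additive] [Pretriangulated T] [IsTriangulated T]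
    [MonoidalCategory T] [SymmetricCategory T] [TensorTriangulated T] [MonoidalClosed T]
    [HasCoproducts.{0} T] [HasProducts.{0} T] [StableCat T]

/-- the sequence of the multiplications by `p` -/
abbrev pSeq (p : ℕ) (W : T) (_ : ℕ) : W ⟶ W := (p : ℤ) • 𝟙 W

section

variable {p : ℕ} {W : T} (U : Tel (X := fun _ => W) (pSeq p W))

theorem pSeq_ι (n : ℕ) : (p : ℤ) • U.ι (n + 1) = U.ι n := by
  have h := U.w n
  rw [Preadditive.zsmul_comp, Category.id_comp] at h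
  exact h

theorem pTel_div (k : ℤ) (x : (𝟙_ T)⟦k⟧ ⟶ U.obj) : ∃ y : (𝟙_ T)⟦k⟧ ⟶ U.obj, (p : ℤ) • y = x := by
  obtain ⟨n, a, rfl⟩ := U.exists_factor (cpt_sphere k) x
  exact ⟨a ≫ U.ι (n + 1), by rw [← Preadditive.comp_zsmul, pSeq_ι]⟩

end

/-- `p` is invertible on the telescope of the multiplications by `p` on a sphere -/
theorem isIso_pTel {p : ℕ} {k : ℤ} (U : Tel (X := fun _ => (𝟙_ T)⟦k⟧) (pSeq p ((𝟙_ T)⟦k⟧))) :
    IsIso ((p : ℤ) • 𝟙 U.obj) := by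
  obtain ⟨s, hs⟩ := U.exists_desc (Z := U.obj) (fun n => U.ι (n + 1)) (by
    intro n
    exact U.w (n + 1))
  have h1 : s ≫ ((p : ℤ) • 𝟙 U.obj) = 𝟙 U.obj := by
    refine U.hom_ext ?_ _ _ fun n => ?_
    · refine Vale.Agent.P251.S.lim1_of_surjective (A := fun _ => ((𝟙_ T)⟦k⟧ ⟶ U.obj⟦(-1 : ℤ)⟧)) ?_
      intro n y
      obtain ⟨x, rfl⟩ := sphere_shift (l := k + 1) (m := -1) (by ring) y
      obtain ⟨x', rfl⟩ := pTel_div U (k + 1) x
      refine ⟨((shiftFunctorAdd' T (k + 1) (-1) k (by ring)).app (𝟙_ T)).hom ≫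
        x'⟦(-1 : ℤ)⟧', ?_⟩
      change ((p : ℤ) • 𝟙 ((𝟙_ T)⟦k⟧)) ≫ _ = _
      rw [Preadditive.zsmul_comp, Category.id_comp, ← Preadditive.comp_zsmul,
        ← Functor.map_zsmul]
    · rw [← Category.assoc, hs, Preadditive.comp_zsmul, Category.comp_id, Category.comp_id,
        pSeq_ι]
  refine ⟨s, ?_, h1⟩
  rw [Preadditive.comp_zsmul, Category.comp_id] at h1
  rw [Preadditive.zsmul_comp, Category.id_comp, h1]

theorem pi_eq_zero_of_surj {p : ℕ} {X : T} (hX : PComp p X) {k : ℤ}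
    (h : ∀ x : (𝟙_ T)⟦k⟧ ⟶ X, ∃ y : (𝟙_ T)⟦k⟧ ⟶ X, (p : ℤ) • y = x)
    (x : (𝟙_ T)⟦k⟧ ⟶ X) : x = 0 := by
  choose d hd using h
  let y : ℕ → ((𝟙_ T)⟦k⟧ ⟶ X) := fun n => Nat.rec x (fun _ z => d z) n
  have hy0 : y 0 = x := rfl
  have hy : ∀ n, (p : ℤ) • y (n + 1) = y n := fun n => hd (y n)
  let U : Tel (X := fun _ => (𝟙_ T)⟦k⟧) (pSeq p ((𝟙_ T)⟦k⟧)) := tel _
  obtain ⟨l, hl⟩ := U.exists_desc (Z := X) y (by
    intro n
    change ((p : ℤ) • 𝟙 ((𝟙_ T)⟦k⟧)) ≫ y (n + 1) = y n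
    rw [Preadditive.zsmul_comp, Category.id_comp, hy])
  rw [← hy0, ← hl 0, hX U.obj (isIso_pTel U) l, comp_zero]

end Vale.Agent.P221
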