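import Vale.Agent.P221.H72.Defs2

/-!
# P221: connective covers of `p`-complete spectra are `p`-complete
-/

open CategoryTheory MonoidalCategory Limits Pretriangulated
open Vale.Agent.P251.T Vale.Agent.P251.S Vale.Agent.P251.H Vale.Agent.P251.M
  Vale.Agent.P251.I Vale.Agent.P251.X

universe v u

set_option linter.unusedSectionVars false

namespace Vale.Agent.P221

section

variable {T : Type u} [Category.{v} T] [Preadditive T] [HasZeroObject T]
    [HasShift T ℤ] [∀ n : ℤ, (shiftFunctor T n).Additive] [Pretriangulated T]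

/-- `p` is invertible on the shifts of an object on which `p` is invertible -/
theorem isIso_smul_shift {p : ℕ} {W : T} (hW : IsIso ((p : ℤ) • 𝟙 W)) (m : ℤ) :
    IsIso ((p : ℤ) • 𝟙 (W⟦m⟧)) := by
  have h : (p : ℤ) • 𝟙 (W⟦m⟧) = ((p : ℤ) • 𝟙 W)⟦m⟧' := by
    rw [Functor.map_zsmul, CategoryTheory.Functor.map_id]
  rw [h]
  infer_instance

section

variable [HasCoproducts.{0} T]

/-- `p` is invertible on the telescope of `p` -/
theorem isIso_smul_tel {p : ℕ} {Y : T} (U : Tel (X := fun _ : ℕ => Y) (fun _ => (p : ℤ) • 𝟙 Y)) :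
    IsIso ((p : ℤ) • 𝟙 U.obj) := by
  let s : ∐ (fun _ : ℕ => Y) ⟶ ∐ (fun _ : ℕ => Y) :=
    Sigma.desc (fun n => Sigma.ι (fun _ : ℕ => Y) (n + 1))
  have hs : sigmaSub (X := fun _ : ℕ => Y) (fun _ => (p : ℤ) • 𝟙 Y) = 𝟙 _ - (p : ℤ) • s := by
    apply Sigma.hom_ext
    intro n
    simp [s, Preadditive.comp_sub]
  have comm : sigmaSub (X := fun _ : ℕ => Y) (fun _ => (p : ℤ) • 𝟙 Y) ≫ s =
      s ≫ sigmaSub (X := fun _ : ℕ => Y) (fun _ => (p : ℤ) • 𝟙 Y) := by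
    rw [hs]
    simp [Preadditive.comp_sub, Preadditive.sub_comp]
  obtain ⟨l, h1, h2⟩ := complete_distinguished_triangle_morphism _ _ U.dist U.dist s s comm
  change U.obj ⟶ U.obj at l
  replace h1 : Sigma.desc U.ι ≫ l = s ≫ Sigma.desc U.ι := h1
  replace h2 : U.δ ≫ s⟦(1 : ℤ)⟧' = l ≫ U.δ := h2
  have h3 : Sigma.desc U.ι ≫ ((p : ℤ) • l - 𝟙 _) = 0 := by
    have h5 := U.sigmaSub_desc_ι
    rw [hs, Preadditive.sub_comp, Category.id_comp, Preadditive.zsmul_comp, ← h1] at h5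
    rw [Preadditive.comp_sub, Category.comp_id, Preadditive.comp_zsmul, ← neg_sub, h5, neg_zero]
  obtain ⟨y, hy⟩ : ∃ y, (p : ℤ) • l - 𝟙 _ = U.δ ≫ y := Triangle.yoneda_exact₃ _ U.dist _ h3
  have h4 : ((p : ℤ) • l - 𝟙 _) ≫ U.δ = 0 := by
    have h5 := U.δ_sigmaSub
    rw [hs, Functor.map_sub, CategoryTheory.Functor.map_id, Functor.map_zsmul,
      Preadditive.comp_sub, Category.comp_id, Preadditive.comp_zsmul, h2] at h5
    rw [Preadditive.sub_comp, Category.id_comp, Preadditive.zsmul_comp, ← neg_sub, h5, neg_zero]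
  have h6 : ((p : ℤ) • l - 𝟙 _) ≫ ((p : ℤ) • l - 𝟙 _) = 0 := by
    have h5 := congrArg (fun t => ((p : ℤ) • l - 𝟙 _) ≫ t) hy
    refine h5.trans ?_
    rw [← Category.assoc, h4, zero_comp]
  have h7 : (p : ℤ) • ((2 : ℤ) • l - (p : ℤ) • (l ≫ l)) = 𝟙 _ := by
    rw [Preadditive.sub_comp, Preadditive.comp_sub, Preadditive.zsmul_comp,
      Preadditive.comp_zsmul, Category.comp_id, Category.id_comp] at h6
    rw [smul_sub, smul_comm (p : ℤ) (2 : ℤ) l, two_smul]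
    have h8 : (p : ℤ) • l + (p : ℤ) • l - (p : ℤ) • (p : ℤ) • l ≫ l - 𝟙 _ = 0 := by
      rw [← neg_eq_zero, ← h6]
      abel
    exact sub_eq_zero.1 h8
  refine ⟨(2 : ℤ) • l - (p : ℤ) • (l ≫ l), ?_, ?_⟩
  · rw [Preadditive.zsmul_comp, Category.id_comp, h7]
  · rw [Preadditive.comp_zsmul, Category.comp_id, h7]

end

end

section

variable {T : Type u} [Category.{v} T] [Preadditive T] [HasZeroObject T]
    [HasShift T ℤ] [∀ n : ℤ, (shiftFunctor T n).Additive] [Pretriangulated T]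
    [MonoidalCategory T]

theorem PComp.shift' {p : ℕ} {X : T} (hX : PComp p X) (m : ℤ) : PComp p (X⟦m⟧) := by
  intro W hW f
  have h1 := hX (W⟦-m⟧) (isIso_smul_shift hW (-m))
    (f⟦-m⟧' ≫ ((shiftFunctorCompIsoId T m (-m) (by simp)).app X).hom)
  have h2 : f⟦-m⟧' = 0 := by
    rw [← cancel_mono ((shiftFunctorCompIsoId T m (-m) (by simp)).app X).hom, h1, zero_comp]
  apply (shiftFunctor T (-m)).map_injective
  rw [h2, Functor.map_zero]

variable [HasCoproducts.{0} T] [HasProducts.{0} T]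

/-- the map `(x_m) ↦ (x_m - p x_(m+1))` -/
noncomputable def piSub (p : ℕ) (X : T) : ∏ᶜ (fun _ : ℕ => X) ⟶ ∏ᶜ (fun _ : ℕ => X) :=
  Pi.lift fun m => Pi.π (fun _ : ℕ => X) m - (p : ℤ) • Pi.π (fun _ : ℕ => X) (m + 1)

theorem comp_piSub_π {p : ℕ} {X Y : T} (y : Y ⟶ ∏ᶜ (fun _ : ℕ => X)) (m : ℕ) :
    (y ≫ piSub p X) ≫ Pi.π (fun _ : ℕ => X) m =
      y ≫ Pi.π (fun _ : ℕ => X) m - (p : ℤ) • (y ≫ Pi.π (fun _ : ℕ => X) (m + 1)) := by
  rw [Category.assoc, piSub, Pi.lift_π, Preadditive.comp_sub, Preadditive.comp_zsmul]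

/-- for `p`-complete `X` the map `piSub p X` is bijective on maps from every object -/
theorem PComp.bij {p : ℕ} {X : T} (hX : PComp p X) (Y : T) :
    (∀ x : ℕ → (Y ⟶ X), (∀ m, x m - (p : ℤ) • x (m + 1) = 0) → ∀ m, x m = 0) ∧
    (∀ z : ℕ → (Y ⟶ X), ∃ x : ℕ → (Y ⟶ X), ∀ m, x m - (p : ℤ) • x (m + 1) = z m) := by
  let U : Tel (X := fun _ : ℕ => Y) (fun _ => (p : ℤ) • 𝟙 Y) := tel _
  have hU := isIso_smul_tel U
  refine ⟨fun x hx m => ?_, fun z => ?_⟩
  · obtain ⟨l, hl⟩ := U.exists_desc x (fun m => by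
      rw [Preadditive.zsmul_comp, Category.id_comp]
      exact (sub_eq_zero.1 (hx m)).symm)
    rw [← hl, hX _ hU l, comp_zero]
  · have h1 : U.δ ≫ (Sigma.desc z)⟦(1 : ℤ)⟧' = 0 := hX.shift' 1 _ hU _
    obtain ⟨y, hy⟩ := (show Dist _ _ _ from U.dist).desc₁ _ h1
    obtain ⟨x, rfl⟩ := (shiftFunctor T (1 : ℤ)).map_surjective y
    rw [← Functor.map_comp] at hy
    have h2 := (shiftFunctor T (1 : ℤ)).map_injective hy
    refine ⟨fun m => Sigma.ι (fun _ : ℕ => Y) m ≫ x, fun m => ?_⟩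
    have h3 := congrArg (fun t => Sigma.ι (fun _ : ℕ => Y) m ≫ t) h2
    simpa [Preadditive.sub_comp, Preadditive.zsmul_comp] using h3

end

section

variable {T : Type u} [Category.{v} T] [Preadditive T] [HasZeroObject T]
    [HasShift T ℤ] [∀ n : ℤ, (shiftFunctor T n).Additive] [Pretriangulated T] [IsTriangulated T]
    [MonoidalCategory T] [SymmetricCategory T] [TensorTriangulated T] [MonoidalClosed T]
    [HasCoproducts.{0} T] [HasProducts.{0} T] [StableCat T]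

/-- `X` is `p`-complete if `piSub p X` is bijective on homotopy groups -/
theorem pcomp_of_bij {p : ℕ} {X : T}
    (h : ∀ k : ℤ, (∀ x : ℕ → ((𝟙_ T)⟦k⟧ ⟶ X), (∀ m, x m - (p : ℤ) • x (m + 1) = 0) →
        ∀ m, x m = 0) ∧
      (∀ z : ℕ → ((𝟙_ T)⟦k⟧ ⟶ X), ∃ x : ℕ → ((𝟙_ T)⟦k⟧ ⟶ X),
        ∀ m, x m - (p : ℤ) • x (m + 1) = z m)) : PComp p X := by
  have hiso : IsIso (piSub p X) := by
    refine isIso_of_bijective_hom (fun k => (𝟙_ T)⟦k⟧)
      (fun k k' h => ⟨((shiftFunctorAdd' T k 1 k' h).app (𝟙_ T)).symm⟩)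
      (fun X hX => StableCat.generator X hX) _ ?_ ?_
    · intro k y hy
      have h1 := (h k).1 (fun m => y ≫ Pi.π (fun _ : ℕ => X) m) (fun m => by
        rw [← comp_piSub_π, hy, zero_comp])
      apply Pi.hom_ext
      intro m
      rw [zero_comp]
      exact h1 m
    · intro k z
      obtain ⟨x, hx⟩ := (h k).2 (fun m => z ≫ Pi.π (fun _ : ℕ => X) m)
      refine ⟨Pi.lift x, ?_⟩
      apply Pi.hom_ext
      intro m
      rw [comp_piSub_π, Pi.lift_π, Pi.lift_π]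
      exact hx m
  intro W hW f
  let q : W ⟶ W := inv ((p : ℤ) • 𝟙 W)
  have hq : (p : ℤ) • q = 𝟙 W := by
    have h1 := IsIso.hom_inv_id ((p : ℤ) • 𝟙 W)
    rwa [Preadditive.zsmul_comp, Category.id_comp] at h1
  let y : ℕ → (W ⟶ X) := fun m => Nat.rec f (fun _ g => q ≫ g) m
  have hy : ∀ m, y (m + 1) = q ≫ y m := fun _ => rfl
  have h2 : Pi.lift y ≫ piSub p X = 0 := by
    apply Pi.hom_ext
    intro m
    rw [comp_piSub_π, Pi.lift_π, Pi.lift_π, hy, ← Preadditive.zsmul_comp, hq, Category.id_comp,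
      sub_self, zero_comp]
  have h3 : Pi.lift y = 0 := by
    rw [← cancel_mono (piSub p X), h2, zero_comp]
  have h4 : Pi.lift y ≫ Pi.π (fun _ : ℕ => X) 0 = f := Pi.lift_π y 0
  rw [← h4, h3, zero_comp]

/-- connective covers of `p`-complete objects are `p`-complete -/
theorem pcomp_cover [LocallySmall.{0} T] (F : SpaceFunctor T) {p : ℕ} {n : ℤ} {A X X' : T}
    {a : A ⟶ X} {f : X ⟶ X'} {w : X' ⟶ A⟦(1 : ℤ)⟧} (D : Dist a f w) (hA : BigCell T n A)
    (hX' : Above n X') (hX : PComp p X) : PComp p A ∧ PComp p X' := by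
  have hc := conn_of_bigCell F hA
  have h1 : PComp p X' := by
    refine pcomp_of_bij fun k => ?_
    obtain ⟨hinj, hsurj⟩ := hX.bij ((𝟙_ T)⟦k⟧)
    by_cases hk : n ≤ k
    · exact ⟨fun x _ m => hX' k hk _, fun z => ⟨fun _ => 0, fun m => by
        rw [hX' k hk (z m), smul_zero, sub_zero]⟩⟩
    · have h2 : ∀ x : (𝟙_ T)⟦k⟧ ⟶ X, x ≫ f = 0 → x = 0 := by
        intro x hx
        obtain ⟨b, rfl⟩ := D.lift₂ x hx
        rw [hc k (by omega) b, zero_comp]
      have h3 : ∀ y : (𝟙_ T)⟦k⟧ ⟶ X', ∃ x : (𝟙_ T)⟦k⟧ ⟶ X, x ≫ f = y := by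
        intro y
        obtain ⟨x, _, hx⟩ := les D (l := k - 1) (by ring) y
        exact hx (hc (k - 1) (by omega) x)
      refine ⟨fun x hx => ?_, fun z => ?_⟩
      · choose x' hx' using fun m => h3 (x m)
        have h4 := hinj x' (fun m => h2 _ (by
          rw [Preadditive.sub_comp, Preadditive.zsmul_comp, hx', hx', hx]))
        intro m
        rw [← hx', h4, zero_comp]
      · choose z' hz' using fun m => h3 (z m)
        obtain ⟨x, hx⟩ := hsurj z'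
        refine ⟨fun m => x m ≫ f, fun m => ?_⟩
        rw [← Preadditive.zsmul_comp, ← Preadditive.sub_comp, hx, hz']
  refine ⟨?_, h1⟩
  intro W hW g
  obtain ⟨x, y, D'⟩ := Dist.invRot' D
  obtain ⟨b, rfl⟩ := D'.lift₂ g (hX W hW _)
  rw [h1.shift' (-1) W hW b, zero_comp]

end

end Vale.Agent.P221
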