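import Vale.Agent.P221.H72.Statement2
import Vale.Agent.P251.X.Split

/-!
# P221: localization maps thick subcategories to thick subcategories
-/

open CategoryTheory MonoidalCategory Limits Pretriangulated

namespace Vale.Agent.P221

open Vale.Agent.P251.St Vale.Agent.P251.St.SHCat Vale.Agent.P257.St

variable {T : SHCat}

namespace H708V

open Vale.Agent.P251.H (exists_cone exists_fibre)

theorem isZero_tensor {E A : T.C} (h : Acyclic E A) : IsZero (E ⊗ A) :=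
  (IsZero.iff_id_eq_zero _).2 h

theorem acyclic_shift {E A : T.C} (h : Acyclic E A) (m : ℤ) : Acyclic E (A⟦m⟧) := by
  have h2 : IsZero ((E ⊗ A)⟦m⟧) := (shiftFunctor T.C m).map_isZero (isZero_tensor h)
  have h3 : IsZero (E ⊗ (A⟦m⟧)) := h2.of_iso (((tensorLeft E).commShiftIso m).app A)
  exact (IsZero.iff_id_eq_zero _).1 h3

/-- `Y` is `E`-local -/
def Loc (E Y : T.C) : Prop := ∀ A : T.C, Acyclic E A → ∀ g : A ⟶ Y, g = 0

theorem Loc.shift {E Y : T.C} (h : Loc E Y) (m : ℤ) : Loc E (Y⟦m⟧) := by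
  intro A hA f
  have h3 := h (A⟦-m⟧) (acyclic_shift hA _) (f⟦-m⟧' ≫ (shiftShiftNeg Y m).hom)
  have h4 : f⟦-m⟧' = 0 := by
    rw [← cancel_mono (shiftShiftNeg Y m).hom, h3, zero_comp]
  exact (shiftFunctor T.C (-m)).map_injective (by rw [h4, Functor.map_zero])

theorem Loc.cof {E X Y Z : T.C} {f : X ⟶ Y} {g : Y ⟶ Z} {h : Z ⟶ X⟦(1 : ℤ)⟧}
    (D : Vale.Agent.P251.H.Dist f g h) (hX : Loc E X) (hY : Loc E Y) : Loc E Z := by
  intro A hA t
  obtain ⟨s, rfl⟩ := D.lift₃ t (hX.shift 1 A hA _)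
  rw [hY A hA s, zero_comp]

theorem Loc.retract {E X Y : T.C} (i : X ⟶ Y) (r : Y ⟶ X) (h : i ≫ r = 𝟙 X) (hY : Loc E Y) :
    Loc E X := by
  intro A hA t
  have h1 : t = (t ≫ i) ≫ r := by rw [Category.assoc, h, Category.comp_id]
  rw [h1, hY A hA (t ≫ i), zero_comp]

/-- maps to local objects extend uniquely along `E`-equivalences -/
theorem bij {E X Z W : T.C} {z : X ⟶ Z} (hz : IsIso (E ◁ z)) (hW : Loc E W) :
    Function.Bijective (fun t : Z ⟶ W => z ≫ t) := by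
  obtain ⟨A, a, b, D⟩ := exists_fibre z
  have hA : Acyclic E A := by
    have D' := Vale.Agent.P251.S.dist_whiskerLeft E D
    have h1 := (Triangle.isZero₁_iff_isIso₂ _ D').2 hz
    exact (IsZero.iff_id_eq_zero _).1 h1
  constructor
  · intro s t hst
    have h1 : z ≫ (s - t) = 0 := by
      rw [Preadditive.comp_sub, sub_eq_zero]
      exact hst
    obtain ⟨c, hc⟩ := D.desc₃ (s - t) h1
    rw [hW _ (acyclic_shift hA 1) c, comp_zero] at hc
    exact sub_eq_zero.1 hc.symm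
  · intro f
    obtain ⟨t, ht⟩ := D.desc₂ f (hW A hA _)
    exact ⟨t, ht⟩

/-- localization, whiskering form -/
def IsL (E : T.C) {X Z : T.C} (z : X ⟶ Z) : Prop := IsIso (E ◁ z) ∧ Loc E Z

theorem isL_of_isLoc {E X Z : T.C} {z : Hom X Z} (h : IsLoc E z) : IsL E z := by
  refine ⟨?_, h.2⟩
  have h1 := h.1
  have h2 : tenHom (ident E) z = E ◁ z := id_tensorHom E z
  rwa [h2] at h1

theorem main {E B ZB : T.C} {b : B ⟶ ZB} (hb : IsL E b) {X : T.C}
    (hX : Thick (fun Y => Y = B) X) :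
    ∃ (Z : T.C) (z : X ⟶ Z), IsL E z ∧ Thick (fun Y => Y = ZB) Z := by
  induction hX with
  | base h => subst h; exact ⟨ZB, b, hb, .base rfl⟩
  | @zero X h =>
    refine ⟨X, 𝟙 X, ⟨?_, fun A _ g => h.eq_of_tgt _ _⟩, .zero h⟩
    rw [whiskerLeft_id]
    infer_instance
  | @shift X k _ ih =>
    obtain ⟨Z, z, hz, hT⟩ := ih
    refine ⟨Z⟦k⟧, z⟦k⟧', ⟨?_, hz.2.shift k⟩, .shift k hT⟩
    have := hz.1
    have h1 := ((tensorLeft E).commShiftIso k).hom.naturality z
    change (E ◁ z⟦k⟧') ≫ ((tensorLeft E).commShiftIso k).hom.app Z =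
      ((tensorLeft E).commShiftIso k).hom.app X ≫ (E ◁ z)⟦k⟧' at h1
    have h2 : IsIso ((E ◁ z⟦k⟧') ≫ ((tensorLeft E).commShiftIso k).hom.app Z) := by
      rw [h1]
      infer_instance
    exact IsIso.of_isIso_comp_right _ (((tensorLeft E).commShiftIso k).hom.app Z)
  | @cof X Y C f g h D _ _ ihX ihY =>
    obtain ⟨ZX, zX, hzX, hTX⟩ := ihX
    obtain ⟨ZY, zY, hzY, hTY⟩ := ihY
    obtain ⟨f', hf'⟩ := (bij hzX.1 hzY.2).2 (f ≫ zY)
    change zX ≫ f' = f ≫ zY at hf'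
    obtain ⟨ZC, g', h', D'⟩ := exists_cone f'
    obtain ⟨c, hc1, hc2⟩ := Vale.Agent.P251.H.Dist.map₃ D D' zX zY hf'.symm
    refine ⟨ZC, c, ⟨?_, hzX.2.cof D' hzY.2⟩, .cof D' hTX hTY⟩
    let φ : Triangle.mk f g h ⟶ Triangle.mk f' g' h' :=
      { hom₁ := zX
        hom₂ := zY
        hom₃ := c
        comm₁ := hf'.symm
        comm₂ := hc1
        comm₃ := hc2 }
    have i1 : IsIso ((tensorLeft E).mapTriangle.map φ).hom₁ := hzX.1
    have i2 : IsIso ((tensorLeft E).mapTriangle.map φ).hom₂ := hzY.1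
    exact isIso₃_of_isIso₁₂ ((tensorLeft E).mapTriangle.map φ)
      ((tensorLeft E).map_distinguished _ D) ((tensorLeft E).map_distinguished _ D') i1 i2
  | @retract X Y i r hir _ ih =>
    obtain ⟨ZY, zY, hzY, hTY⟩ := ih
    obtain ⟨ε, hε⟩ := (bij hzY.1 hzY.2).2 ((r ≫ i) ≫ zY)
    change zY ≫ ε = (r ≫ i) ≫ zY at hε
    have hεε : ε ≫ ε = ε := by
      apply (bij hzY.1 hzY.2).1
      change zY ≫ ε ≫ ε = zY ≫ ε
      rw [← Category.assoc, hε, Category.assoc, hε]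
      simp only [Category.assoc]
      rw [← Category.assoc i, hir, Category.id_comp]
    obtain ⟨P, s, t, hst, hts⟩ := Vale.Agent.P251.X.exists_split ε hεε
    refine ⟨P, i ≫ zY ≫ t, ⟨?_, hzY.2.retract s t hst⟩, .retract s t hst hTY⟩
    have := hzY.1
    refine ⟨(E ◁ s) ≫ inv (E ◁ zY) ≫ (E ◁ r), ?_, ?_⟩
    · have h1 : (i ≫ zY ≫ t) ≫ s = i ≫ zY := by
        rw [Category.assoc, Category.assoc, hts, hε, Category.assoc, ← Category.assoc i,
          hir, Category.id_comp]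
      rw [← Category.assoc, ← whiskerLeft_comp, h1, whiskerLeft_comp, Category.assoc,
        IsIso.hom_inv_id_assoc, ← whiskerLeft_comp, hir, whiskerLeft_id]
    · have h1 : r ≫ i ≫ zY ≫ t = zY ≫ ε ≫ t := by
        rw [← Category.assoc zY, hε]
        simp only [Category.assoc]
      rw [Category.assoc, Category.assoc, ← whiskerLeft_comp, h1, whiskerLeft_comp,
        IsIso.inv_hom_id_assoc, ← whiskerLeft_comp, ← hts, Category.assoc, hst, Category.comp_id,
        hst, whiskerLeft_id]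

end H708V

open H708V

theorem thick_of_loc {T : SHCat} {E B ZB X Z : T.C} {b : Hom B ZB} {z : Hom X Z}
    (hb : IsLoc E b) (hz : IsLoc E z) (hX : Thick (fun Y => Y = B) X) :
    Thick (fun Y => Y = ZB) Z := by
  obtain ⟨Z', z', hz', hT⟩ := H708V.main (isL_of_isLoc hb) hX
  have hz1 := isL_of_isLoc hz
  obtain ⟨u, hu⟩ := (bij hz1.1 hz'.2).2 z'
  obtain ⟨v, hv⟩ := (bij hz'.1 hz1.2).2 z
  change z ≫ u = z' at hu
  change z' ≫ v = z at hv
  refine .retract u v ((bij hz1.1 hz1.2).1 ?_) hT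
  change z ≫ u ≫ v = z ≫ 𝟙 Z
  rw [← Category.assoc, hu, hv, Category.comp_id]

end Vale.Agent.P221
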