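import Vale.Agent.P251.X.HQ

/-!
# P221: thick subcategories, homotopy groups (proof layer)
-/

open CategoryTheory MonoidalCategory Limits Pretriangulated
open Vale.Agent.P251.T Vale.Agent.P251.S Vale.Agent.P251.H Vale.Agent.P251.M
  Vale.Agent.P251.I

universe v u

set_option linter.unusedSectionVars false

namespace Vale.Agent.P221

section

variable {T : Type u} [Category.{v} T] [Preadditive T] [HasZeroObject T]
    [HasShift T ℤ] [∀ n : ℤ, (shiftFunctor T n).Additive] [Pretriangulated T]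

/-- The smallest class of objects containing `P` and the zero objects and closed under all integer
shifts, cofibre sequences and retracts (hence under isomorphisms and finite sums). -/
inductive Thick (P : T → Prop) : T → Prop
  | base {X : T} (h : P X) : Thick P X
  | zero {X : T} (h : IsZero X) : Thick P X
  | shift {X : T} (k : ℤ) (h : Thick P X) : Thick P (X⟦k⟧)
  | cof {X Y Z : T} {f : X ⟶ Y} {g : Y ⟶ Z} {h : Z ⟶ X⟦(1 : ℤ)⟧}
      (D : Triangle.mk f g h ∈ distTriang T) (hX : Thick P X) (hY : Thick P Y) : Thick P Z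
  | retract {X Y : T} (i : X ⟶ Y) (r : Y ⟶ X) (h : i ≫ r = 𝟙 X) (hY : Thick P Y) : Thick P X

variable [MonoidalCategory T]

/-- `π_k X = 0` for `k ≥ n`. -/
def Above (n : ℤ) (X : T) : Prop := ∀ k : ℤ, n ≤ k → ∀ f : (𝟙_ T)⟦k⟧ ⟶ X, f = 0

/-- all the homotopy groups of `X` are finite `p`-groups -/
def FT (p : ℕ) (X : T) : Prop :=
  ∀ k : ℤ, Finite ((𝟙_ T)⟦k⟧ ⟶ X) ∧ ∀ f : (𝟙_ T)⟦k⟧ ⟶ X, ∃ N : ℕ, ((p : ℤ) ^ N) • f = 0

/-- `π_k f` is bijective for all `k ≥ n` -/
def EvIso (n : ℤ) {X Y : T} (f : X ⟶ Y) : Prop :=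
  ∀ k : ℤ, n ≤ k → Function.Bijective (fun x : (𝟙_ T)⟦k⟧ ⟶ X => x ≫ f)

end

namespace Thick

variable {T : Type u} [Category.{v} T] [Preadditive T] [HasZeroObject T]
    [HasShift T ℤ] [∀ n : ℤ, (shiftFunctor T n).Additive] [Pretriangulated T] {P : T → Prop}

theorem of_iso {X Y : T} (e : X ≅ Y) (h : Thick P X) : Thick P Y :=
  .retract e.inv e.hom e.inv_hom_id h

theorem of_shift {X : T} (k : ℤ) (h : Thick P (X⟦k⟧)) : Thick P X :=
  of_iso (shiftShiftNeg X k) (h.shift (-k))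

theorem cof₁ {X Y Z : T} {f : X ⟶ Y} {g : Y ⟶ Z} {h : Z ⟶ X⟦(1 : ℤ)⟧}
    (D : Triangle.mk f g h ∈ distTriang T) (hY : Thick P Y) (hZ : Thick P Z) : Thick P X :=
  of_shift 1 (.cof (rot_of_distTriang _ D) hY hZ)

theorem cof₂ {X Y Z : T} {f : X ⟶ Y} {g : Y ⟶ Z} {h : Z ⟶ X⟦(1 : ℤ)⟧}
    (D : Triangle.mk f g h ∈ distTriang T) (hX : Thick P X) (hZ : Thick P Z) : Thick P Y :=
  of_shift 1 (.cof (rot_of_distTriang _ (rot_of_distTriang _ D)) hZ (hX.shift 1))

theorem mono {Q : T → Prop} (h : ∀ X, P X → Thick Q X) {X : T} (hX : Thick P X) : Thick Q X := by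
  induction hX with
  | base hX => exact h _ hX
  | zero hX => exact .zero hX
  | shift k _ ih => exact .shift k ih
  | cof D _ _ ih₁ ih₂ => exact .cof D ih₁ ih₂
  | retract i r hir _ ih => exact .retract i r hir ih

end Thick

end Vale.Agent.P221
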