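import Vale.Agent.P221.H72.Good

/-!
# P221: `p`-complete spectra with degreewise finite homotopy modulo `p` (proof layer)
-/

open CategoryTheory MonoidalCategory Limits Pretriangulated
open Vale.Agent.P251.T Vale.Agent.P251.S Vale.Agent.P251.H Vale.Agent.P251.M
  Vale.Agent.P251.I Vale.Agent.P251.X

universe v u

set_option linter.unusedSectionVars false

namespace Vale.Agent.P221

variable {T : Type u} [Category.{v} T] [Preadditive T] [HasZeroObject T]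
    [HasShift T ℤ] [∀ n : ℤ, (shiftFunctor T n).Additive] [Pretriangulated T]
    [MonoidalCategory T]

/-- `X` is `p`-complete -/
def PComp (p : ℕ) (X : T) : Prop := ∀ W : T, IsIso ((p : ℤ) • 𝟙 W) → ∀ f : W ⟶ X, f = 0

/-- `e : 𝟙 ⟶ H` is the unit of the Eilenberg-Mac Lane spectrum of `𝔽_p` -/
structure EMp (p : ℕ) {H : T} (e : 𝟙_ T ⟶ H) : Prop where
  h0 : ∀ k : ℤ, k ≠ 0 → ∀ g : (𝟙_ T)⟦k⟧ ⟶ H, g = 0
  he : e ≠ 0
  hpe : (p : ℤ) • e = 0
  hgen : ∀ f : 𝟙_ T ⟶ H, ∃ m : ℤ, f = m • e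

/-- an abstract class of spectra, closed under cofibres, retracts and connective covers -/
structure Cls [HasCoproducts.{0} T] (Φ : T → Prop) : Prop where
  zero : ∀ {X : T}, IsZero X → Φ X
  shift : ∀ {X : T} (m : ℤ), Φ X → Φ (X⟦m⟧)
  cof : ∀ {X Y Z : T} {f : X ⟶ Y} {g : Y ⟶ Z} {h : Z ⟶ X⟦(1 : ℤ)⟧},
    Dist f g h → Φ X → Φ Y → Φ Z
  retract : ∀ {X Y : T} (i : X ⟶ Y) (r : Y ⟶ X), i ≫ r = 𝟙 X → Φ Y → Φ X
  cover : ∀ {n : ℤ} {A X X' : T} {a : A ⟶ X} {f : X ⟶ X'} {w : X' ⟶ A⟦(1 : ℤ)⟧},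
    Dist a f w → BigCell T n A → Above n X' → Φ X → Φ A

end Vale.Agent.P221
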