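import Vale.Agent.P221.H72.Trunc
import Vale.Agent.P251.M.PiR

/-!
# P221: extension of an element of order `p` over the Eilenberg-MacLane object
-/

open CategoryTheory MonoidalCategory Limits Pretriangulated
open Vale.Agent.P251.T Vale.Agent.P251.S Vale.Agent.P251.H Vale.Agent.P251.M
  Vale.Agent.P251.I Vale.Agent.P251.X

universe v u

set_option linter.unusedSectionVars false

namespace Vale.Agent.P221

variable {T : Type u} [Category.{v} T] [Preadditive T] [HasZeroObject T]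
    [HasShift T ℤ] [∀ n : ℤ, (shiftFunctor T n).Additive] [Pretriangulated T] [IsTriangulated T]
    [MonoidalCategory T] [SymmetricCategory T] [TensorTriangulated T] [MonoidalClosed T]
    [HasCoproducts.{0} T] [HasProducts.{0} T] [StableCat T]

theorem em_extend [LocallySmall.{0} T] (F : SpaceFunctor T) {p : ℕ} (hp : p.Prime) {H : T}
    (e : 𝟙_ T ⟶ H) (h0 : ∀ k : ℤ, k ≠ 0 → ∀ g : (𝟙_ T)⟦k⟧ ⟶ H, g = 0) (he : e ≠ 0)
    (hpe : (p : ℤ) • e = 0) (hgen : ∀ f : 𝟙_ T ⟶ H, ∃ m : ℤ, f = m • e)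
    {D : T} (hD : Above 1 D) (x : 𝟙_ T ⟶ D) (hx : (p : ℤ) • x = 0) :
    ∃ c : H ⟶ D, e ≫ c = x := by
  let ε : (𝟙_ T)⟦(0 : ℤ)⟧ ≅ 𝟙_ T := (shiftFunctorZero T ℤ).app (𝟙_ T)
  obtain ⟨M, i, δ, DM⟩ := exists_cone ((p : ℤ) • 𝟙 (𝟙_ T))
  have hpi : (p : ℤ) • i = 0 := by
    have h := DM.zero₁₂
    rwa [Preadditive.zsmul_comp, Category.id_comp] at h
  obtain ⟨e', he'⟩ := DM.desc₂ e (by rw [Preadditive.zsmul_comp, Category.id_comp, hpe])
  obtain ⟨x', hx'⟩ := DM.desc₂ x (by rw [Preadditive.zsmul_comp, Category.id_comp, hx])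
  obtain ⟨J, j, w, DJ⟩ := exists_cone e'
  have h1 : Conn 0 (𝟙_ T) := unit_conn F
  have hM : Conn 0 M := Conn.ext₃ _ DM h1 (h1.mono (by norm_num))
  have hJ : Conn 2 J := by
    intro k hk z
    obtain ⟨m, hm, h2⟩ := les DJ (l := k - 1) (by ring) z
    have hm0 : m = 0 := by
      rcases eq_or_ne k 1 with rfl | hk1
      · have h3 : m ≫ δ = 0 :=
          (h1.shift 1 1 (by ring) : Conn 1 ((𝟙_ T)⟦(1 : ℤ)⟧)) _ (by norm_num) _
        obtain ⟨a, rfl⟩ := DM.lift₃ m h3
        obtain ⟨N, hN⟩ := exists_int_unit F (ε.inv ≫ a)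
        have h4 : ε.inv ≫ a ≫ i = N • i := by
          have h5 : (ε.inv ≫ a) ≫ i = N • i := by
            rw [hN, Preadditive.zsmul_comp, Category.id_comp]
          rw [← h5, Category.assoc]
        have h6 : N • e = 0 := by
          have h7 : (ε.inv ≫ a ≫ i) ≫ e' = 0 := by
            rw [Category.assoc]
            erw [hm]
            rw [comp_zero]
          rwa [h4, Preadditive.zsmul_comp, he'] at h7
        have h8 : (p : ℤ) ∣ N := by
          by_contra h
          obtain ⟨b, c, hbc⟩ := (Nat.prime_iff_prime_int.1 hp).coprime_iff_not_dvd.2 h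
          apply he
          have h9 : (b * p + c * N) • e = 0 := by
            rw [add_smul, mul_smul, mul_smul, hpe, h6]; simp
          rwa [hbc, one_smul] at h9
        obtain ⟨c, rfl⟩ := h8
        rw [mul_comm, mul_smul, hpi, smul_zero] at h4
        rw [← cancel_epi ε.inv, comp_zero]
        exact h4
      · exact hM _ (by omega) m
    obtain ⟨y, rfl⟩ := h2 hm0
    rcases eq_or_ne k 0 with rfl | hk0
    · obtain ⟨q, hq⟩ := hgen (ε.inv ≫ y)
      rw [← cancel_epi ε.inv, comp_zero]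
      have h3 : (ε.inv ≫ y) ≫ j = 0 := by
        rw [hq, ← he', Preadditive.zsmul_comp, Category.assoc, DJ.zero₁₂, comp_zero, smul_zero]
      rwa [Category.assoc] at h3
    · rw [h0 k hk0 y, zero_comp]
  obtain ⟨a, b, Da⟩ := Dist.invRot' DJ
  have hA : BigCell T 1 (J⟦(-1 : ℤ)⟧) := bigCell_of_conn F (hJ.shift (-1) 1 (by ring))
  obtain ⟨c, hc⟩ := Da.desc₂ x' (hom_eq_zero hA hD _)
  exact ⟨c, by rw [← he', Category.assoc, hc, hx']⟩

end Vale.Agent.P221
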