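import Vale.Agent.P221.H72.EmA
import Vale.Agent.P221.H72.FTlem

/-!
# P221: bounded spectra whose homotopy groups are finite `p`-groups
-/

open CategoryTheory MonoidalCategory Limits Pretriangulated
open Vale.Agent.P251.T Vale.Agent.P251.S Vale.Agent.P251.H Vale.Agent.P251.M
  Vale.Agent.P251.I Vale.Agent.P251.X

universe v u

set_option linter.unusedSectionVars false

namespace Vale.Agent.P221

variable {T : Type u} [Category.{v} T] [Preadditive T] [HasZeroObject T]
    [HasShift T ℤ] [∀ n : ℤ, (shiftFunctor T n).Additive] [Pretriangulated T] [IsTriangulated T]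
    [MonoidalCategory T] [SymmetricCategory T] [TensorTriangulated T] [MonoidalClosed T]
    [HasCoproducts.{0} T] [HasProducts.{0} T] [StableCat T]

/-- `𝟙⟦0⟧ ≅ 𝟙` -/
noncomputable def zeroIso (T : Type u) [Category.{v} T] [Preadditive T] [HasZeroObject T]
    [HasShift T ℤ] [MonoidalCategory T] : (𝟙_ T)⟦(0 : ℤ)⟧ ≅ 𝟙_ T :=
  (shiftFunctorZero T ℤ).app (𝟙_ T)

/-- a multiple of an element of order `p` vanishes only if the integer is a multiple of `p` -/
theorem dvd_of_smul {p : ℕ} (hp : p.Prime) {A B : T} {x : A ⟶ B} (hx : x ≠ 0)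
    (hpx : (p : ℤ) • x = 0) {m : ℤ} (hm : m • x = 0) : (p : ℤ) ∣ m := by
  by_contra h
  have hc : IsCoprime (p : ℤ) m := (Nat.prime_iff_prime_int.1 hp).coprime_iff_not_dvd.2 h
  obtain ⟨a, b, hab⟩ := hc
  apply hx
  have h1 : (a * p + b * m) • x = 0 := by rw [add_smul, mul_smul, mul_smul, hpx, hm]; simp
  rwa [hab, one_smul] at h1

theorem smul_of_dvd {p : ℕ} {A B : T} {x : A ⟶ B}
    (hpx : (p : ℤ) • x = 0) {m : ℤ} (hm : (p : ℤ) ∣ m) : m • x = 0 := by
  obtain ⟨c, rfl⟩ := hm
  rw [mul_comm, mul_smul, hpx, smul_zero]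

/-- the homotopy groups of `H` -/
theorem ft_em {p : ℕ} (hp : p.Prime) {H : T} (e : 𝟙_ T ⟶ H)
    (h0 : ∀ k : ℤ, k ≠ 0 → ∀ g : (𝟙_ T)⟦k⟧ ⟶ H, g = 0)
    (hpe : (p : ℤ) • e = 0) (hgen : ∀ f : 𝟙_ T ⟶ H, ∃ m : ℤ, f = m • e) : FT p H := by
  intro k
  rcases eq_or_ne k 0 with rfl | hk
  · have hf : ∀ f : (𝟙_ T)⟦(0 : ℤ)⟧ ⟶ H, ∃ m : ℤ, f = m • ((zeroIso T).hom ≫ e) := by
      intro f
      obtain ⟨m, hm⟩ := hgen ((zeroIso T).inv ≫ f)
      refine ⟨m, ?_⟩
      rw [← Preadditive.comp_zsmul, ← hm, Iso.hom_inv_id_assoc]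
    have hp' : (p : ℤ) • ((zeroIso T).hom ≫ e) = 0 := by
      rw [← Preadditive.comp_zsmul, hpe, comp_zero]
    constructor
    · have hpos : (0 : ℤ) < p := by exact_mod_cast hp.pos
      refine Finite.of_surjective
        (fun i : Fin p => ((i : ℕ) : ℤ) • ((zeroIso T).hom ≫ e)) fun f => ?_
      obtain ⟨m, rfl⟩ := hf f
      refine ⟨⟨(m % p).toNat, by
        have := Int.emod_lt_of_pos m hpos
        have := Int.emod_nonneg m hpos.ne'
        omega⟩, ?_⟩
      change (((m % p).toNat : ℕ) : ℤ) • ((zeroIso T).hom ≫ e) = m • ((zeroIso T).hom ≫ e)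
      rw [Int.toNat_of_nonneg (Int.emod_nonneg m hpos.ne'), ← sub_eq_zero, ← sub_smul]
      exact smul_of_dvd hp' (by
        rw [← Int.modEq_iff_dvd]
        exact (Int.mod_modEq m p).symm)
    · intro f
      obtain ⟨m, rfl⟩ := hf f
      exact ⟨1, by rw [pow_one, smul_comm, hp', smul_zero]⟩
  · exact ⟨Finite.of_injective (fun _ => ()) fun x y _ => by rw [h0 k hk x, h0 k hk y],
      fun f => ⟨0, h0 k hk _⟩⟩

theorem above_zero_of {D : T} (hD : Above 1 D) (h : ∀ x : 𝟙_ T ⟶ D, x = 0) : Above 0 D := by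
  intro k hk f
  rcases eq_or_lt_of_le hk with rfl | hk
  · have h1 := h ((zeroIso T).inv ≫ f)
    rw [← cancel_epi (zeroIso T).inv, h1, comp_zero]
  · exact hD k (by omega) f

theorem em_aux [LocallySmall.{0} T] (F : SpaceFunctor T) {p : ℕ} (hp : p.Prime) {H : T}
    (e : 𝟙_ T ⟶ H) (h0 : ∀ k : ℤ, k ≠ 0 → ∀ g : (𝟙_ T)⟦k⟧ ⟶ H, g = 0) (he : e ≠ 0)
    (hpe : (p : ℤ) • e = 0) (hgen : ∀ f : 𝟙_ T ⟶ H, ∃ m : ℤ, f = m • e) (m : ℕ) :
    ∀ D : T, FT p D → Above 1 D → Conn (1 - m) D → Thick (fun X => X = H) D := by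
  have hFH : FT p H := ft_em hp e h0 hpe hgen
  have hcH : Conn 0 H := fun k hk f => h0 k (by omega) f
  induction m with
  | zero =>
    intro D _ hA hC
    refine .zero (StableCat.generator D fun k g => ?_)
    rcases lt_or_ge k 1 with hk | hk
    · exact hC k (by push_cast; omega) g
    · exact hA k hk g
  | succ m ihm =>
    have key : ∀ (n : ℕ) (D : T), Nat.card (𝟙_ T ⟶ D) ≤ n → FT p D → Above 1 D →
        Conn (1 - ((m + 1 : ℕ) : ℤ)) D → Thick (fun X => X = H) D := by
      intro n
      induction n with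
      | zero =>
        intro D hn hF _ _
        exfalso
        have h1 := (hF 0).1
        have h2 : Finite (𝟙_ T ⟶ D) :=
          Finite.of_injective (fun x : 𝟙_ T ⟶ D => (zeroIso T).hom ≫ x) fun x y hxy =>
            (cancel_epi _).1 hxy
        have h3 : 0 < Nat.card (𝟙_ T ⟶ D) := Nat.card_pos
        omega
      | succ n ihn =>
        intro D hn hF hA hC
        by_cases hz : ∀ x : 𝟙_ T ⟶ D, x = 0
        · refine Thick.of_shift 1 (ihm _ (hF.shift 1)
            ((above_zero_of hA hz).shift 1 1 (by ring)) (hC.shift 1 _ (by push_cast; ring)))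
        · push Not at hz
          obtain ⟨x, hx⟩ := hz
          obtain ⟨N, hN⟩ : ∃ N : ℕ, ((p : ℤ) ^ N) • x = 0 := by
            obtain ⟨N, hN⟩ := (hF 0).2 ((zeroIso T).hom ≫ x)
            refine ⟨N, ?_⟩
            rw [← Preadditive.comp_zsmul] at hN
            rw [← cancel_epi (zeroIso T).hom, hN, comp_zero]
          obtain ⟨y, hy, hpy⟩ : ∃ y : 𝟙_ T ⟶ D, y ≠ 0 ∧ (p : ℤ) • y = 0 := by
            classical
            have hex : ∃ N : ℕ, ((p : ℤ) ^ N) • x = 0 := ⟨N, hN⟩
            have hpos : Nat.find hex ≠ 0 := by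
              intro h
              have := Nat.find_spec hex
              rw [h, pow_zero, one_smul] at this
              exact hx this
            obtain ⟨M, hM⟩ := Nat.exists_eq_succ_of_ne_zero hpos
            refine ⟨((p : ℤ) ^ M) • x, Nat.find_min hex (by omega), ?_⟩
            have := Nat.find_spec hex
            rw [hM, pow_succ'] at this
            rwa [mul_smul] at this
          obtain ⟨c, hc⟩ := em_extend F hp e h0 he hpe hgen hA y hpy
          obtain ⟨D', f, w, Dt⟩ := exists_cone c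
          have hF' : FT p D' := FT.cof Dt hFH hF
          have hA' : Above 1 D' := by
            intro k hk z
            obtain ⟨u, hu, h1⟩ := les Dt (l := k - 1) (by ring) z
            have hu0 : u = 0 := by
              rcases eq_or_ne k 1 with rfl | hk1
              · obtain ⟨q, hq⟩ := hgen ((zeroIso T).inv ≫ u)
                have h2 : q • y = 0 := by
                  rw [← hc, ← Preadditive.zsmul_comp, ← hq, Category.assoc]
                  erw [hu]
                  rw [comp_zero]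
                have h3 := smul_of_dvd hpe (dvd_of_smul hp hy hpy h2)
                rw [h3] at hq
                rw [← cancel_epi (zeroIso T).inv, comp_zero]
                exact hq
              · exact h0 _ (by omega) u
            obtain ⟨y', rfl⟩ := h1 hu0
            rw [hA k hk y', zero_comp]
          have hC' : Conn (1 - ((m + 1 : ℕ) : ℤ)) D' :=
            Conn.ext₃ _ Dt hC (hcH.mono (by push_cast; omega))
          have hcard : Nat.card (𝟙_ T ⟶ D') < Nat.card (𝟙_ T ⟶ D) := by
            have h1 := (hF 0).1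
            have h2 : Finite (𝟙_ T ⟶ D) :=
              Finite.of_injective (fun x : 𝟙_ T ⟶ D => (zeroIso T).hom ≫ x) fun x y hxy =>
                (cancel_epi _).1 hxy
            have hsurj : Function.Surjective (fun x : 𝟙_ T ⟶ D => x ≫ f) := by
              intro z
              obtain ⟨u, hu, h3⟩ := les Dt (k := 0) (l := -1) (by ring) ((zeroIso T).hom ≫ z)
              obtain ⟨y', hy'⟩ := h3 (h0 _ (by omega) u)
              refine ⟨(zeroIso T).inv ≫ y', ?_⟩
              change ((zeroIso T).inv ≫ y') ≫ f = z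
              rw [Category.assoc, hy', Iso.inv_hom_id_assoc]
            have hninj : ¬ Function.Injective (fun x : 𝟙_ T ⟶ D => x ≫ f) := by
              intro hi
              apply hy
              apply hi
              change y ≫ f = 0 ≫ f
              rw [← hc, Category.assoc, Dt.zero₁₂, comp_zero, zero_comp]
            have h4 : Finite (𝟙_ T ⟶ D') := Finite.of_surjective _ hsurj
            have := Fintype.ofFinite (𝟙_ T ⟶ D)
            have := Fintype.ofFinite (𝟙_ T ⟶ D')
            rw [Nat.card_eq_fintype_card, Nat.card_eq_fintype_card]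
            exact Fintype.card_lt_of_surjective_not_injective _ hsurj hninj
          exact Thick.cof₂ Dt (.base rfl) (ihn D' (by omega) hF' hA' hC')
    exact fun D h1 h2 h3 => key _ D le_rfl h1 h2 h3

theorem em [LocallySmall.{0} T] (F : SpaceFunctor T) {p : ℕ} (hp : p.Prime) {H : T}
    (e : 𝟙_ T ⟶ H) (h0 : ∀ k : ℤ, k ≠ 0 → ∀ g : (𝟙_ T)⟦k⟧ ⟶ H, g = 0) (he : e ≠ 0)
    (hpe : (p : ℤ) • e = 0) (hgen : ∀ f : 𝟙_ T ⟶ H, ∃ m : ℤ, f = m • e)
    {D : T} (hD : FT p D) {a b : ℤ} (ha : Conn a D) (hb : Above b D) :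
    Thick (fun X => X = H) D := by
  refine Thick.of_shift (1 - b) (em_aux F hp e h0 he hpe hgen (b - a).toNat _ (hD.shift _)
    (hb.shift (1 - b) 1 (by ring)) ((ha.shift (1 - b) (a + (1 - b)) rfl).mono ?_))
  have := Int.self_le_toNat (b - a)
  omega

end Vale.Agent.P221
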