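import Vale.Agent.P221.H72.Defs2

/-!
# P221: extension of arbitrary classes along `𝟙 ⟶ H₀`, `H₀` the `p`-complete integral
Eilenberg-Mac Lane object
-/

open CategoryTheory MonoidalCategory Limits Pretriangulated
open Vale.Agent.P251.T Vale.Agent.P251.S Vale.Agent.P251.H Vale.Agent.P251.M
  Vale.Agent.P251.I Vale.Agent.P251.X

universe v u

set_option linter.unusedSectionVars false

namespace Vale.Agent.P221

namespace H708

variable {T : Type u} [Category.{v} T] [Preadditive T] [HasZeroObject T]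
    [HasShift T ℤ] [∀ n : ℤ, (shiftFunctor T n).Additive] [Pretriangulated T] [IsTriangulated T]
    [MonoidalCategory T] [SymmetricCategory T] [TensorTriangulated T] [MonoidalClosed T]
    [HasCoproducts.{0} T] [HasProducts.{0} T] [StableCat T]

/-- if `N • e = 0`, `p • e = 0` and `e ≠ 0` then `p ∣ N` -/
theorem dvd_of_smul_eq_zero {G : Type*} [AddCommGroup G] {p : ℕ} (hp : p.Prime) {e : G}
    (he : e ≠ 0) (hpe : (p : ℤ) • e = 0) {N : ℤ} (hN : N • e = 0) : (p : ℤ) ∣ N := by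
  by_contra hd
  have hc : IsCoprime (p : ℤ) N :=
    (Prime.coprime_iff_not_dvd (Nat.prime_iff_prime_int.1 hp)).2 hd
  obtain ⟨a, b, hab⟩ := hc
  apply he
  calc e = (1 : ℤ) • e := (one_zsmul e).symm
    _ = (a * p + b * N) • e := by rw [hab]
    _ = 0 := by rw [add_zsmul, mul_zsmul, mul_zsmul, hpe, hN, zsmul_zero, zsmul_zero, add_zero]

/-- bijectivity of `p` on the homotopy groups implies invertibility of `p` -/
theorem isIso_zsmul_of_bij {m : ℤ} {K : T}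
    (hinj : ∀ (k : ℤ) (x : (𝟙_ T)⟦k⟧ ⟶ K), m • x = 0 → x = 0)
    (hsurj : ∀ (k : ℤ) (y : (𝟙_ T)⟦k⟧ ⟶ K), ∃ x : (𝟙_ T)⟦k⟧ ⟶ K, m • x = y) :
    IsIso (m • 𝟙 K) := by
  refine isIso_of_bijective_hom (fun k => (𝟙_ T)⟦k⟧)
    (fun k k' h => ⟨((shiftFunctorAdd' T k 1 k' h).app (𝟙_ T)).symm⟩)
    (fun X hX => StableCat.generator X hX) _ ?_ ?_
  · intro k x hx
    rw [Preadditive.comp_zsmul, Category.comp_id] at hx
    exact hinj k x hx
  · intro k y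
    obtain ⟨x, hx⟩ := hsurj k y
    exact ⟨x, by rw [Preadditive.comp_zsmul, Category.comp_id, hx]⟩

/-- the constant sequence with the maps `m` -/
abbrev cSeq (m : ℤ) (A : T) (_n : ℕ) : A ⟶ A := m • 𝟙 A

theorem trT_cSeq (m : ℤ) (A : T) (n k : ℕ) :
    trT (X := fun _ => A) (cSeq m A) n k = (m ^ k) • 𝟙 A := by
  induction k with
  | zero => rw [trT_zero, pow_zero, one_smul]
  | succ k ih =>
    rw [trT_succ, ih]
    change (m ^ k • 𝟙 A) ≫ (m • 𝟙 A) = _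
    rw [Preadditive.comp_zsmul, Category.comp_id, ← mul_smul, pow_succ']

theorem isIso_zsmul_tel (m : ℤ) {A : T} (U : Tel (X := fun _ => A) (cSeq m A)) :
    IsIso (m • 𝟙 U.obj) := by
  refine isIso_zsmul_of_bij ?_ ?_
  · intro k x hx
    obtain ⟨n, a, rfl⟩ := U.exists_factor (cpt_sphere k) x
    have h1 : (m • a) ≫ U.ι n = 0 := by rw [Preadditive.zsmul_comp, hx]
    obtain ⟨l, hl⟩ := U.exists_eq_zero (cpt_sphere k) _ h1
    rw [trT_cSeq, Preadditive.comp_zsmul, Category.comp_id, ← mul_smul, ← pow_succ] at hl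
    have h2 := U.trT_ι n (l + 1)
    rw [trT_cSeq] at h2
    rw [← h2, Preadditive.zsmul_comp, Category.id_comp, Preadditive.comp_zsmul,
      ← Preadditive.zsmul_comp, hl, zero_comp]
  · intro k y
    obtain ⟨n, a, rfl⟩ := U.exists_factor (cpt_sphere k) y
    refine ⟨a ≫ U.ι (n + 1), ?_⟩
    have h2 := U.w n
    change (m • 𝟙 A) ≫ U.ι (n + 1) = U.ι n at h2
    rw [← h2, Preadditive.zsmul_comp, Category.id_comp, Preadditive.comp_zsmul]

theorem pi_eq_zero_of_surj' {p : ℕ} {X : T} (hX : PComp p X) {k : ℤ}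
    (h : ∀ x : (𝟙_ T)⟦k⟧ ⟶ X, ∃ y : (𝟙_ T)⟦k⟧ ⟶ X, (p : ℤ) • y = x)
    (x : (𝟙_ T)⟦k⟧ ⟶ X) : x = 0 := by
  choose s hs using h
  let U : Tel (X := fun _ => (𝟙_ T)⟦k⟧) (cSeq (p : ℤ) ((𝟙_ T)⟦k⟧)) := tel _
  let y : ∀ n : ℕ, (𝟙_ T)⟦k⟧ ⟶ X := fun n => Nat.rec x (fun _ z => s z) n
  obtain ⟨l, hl⟩ := U.exists_desc (Z := X) y (fun n => by
    change ((p : ℤ) • 𝟙 ((𝟙_ T)⟦k⟧)) ≫ s (y n) = y n
    rw [Preadditive.zsmul_comp, Category.id_comp, hs])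
  have h0 : l = 0 := hX _ (isIso_zsmul_tel (p : ℤ) U) l
  have h1 := hl 0
  rw [h0, comp_zero] at h1
  exact h1.symm

end H708

open H708

section

variable {T : Type u} [Category.{v} T] [Preadditive T] [HasZeroObject T]
    [HasShift T ℤ] [∀ n : ℤ, (shiftFunctor T n).Additive] [Pretriangulated T] [IsTriangulated T]
    [MonoidalCategory T] [SymmetricCategory T] [TensorTriangulated T] [MonoidalClosed T]
    [HasCoproducts.{0} T] [HasProducts.{0} T] [StableCat T] [LocallySmall.{0} T]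

theorem emz_extend (F : SpaceFunctor T) {p : ℕ} (hp : p.Prime) {H H₀ : T} {e : 𝟙_ T ⟶ H}
    (he : EMp p e) (hH₀ : PComp p H₀) {g : H₀ ⟶ H} {h : H ⟶ H₀⟦(1 : ℤ)⟧}
    (D₀ : Dist ((p : ℤ) • 𝟙 H₀) g h) :
    ∃ e₀ : 𝟙_ T ⟶ H₀, e₀ ≫ g = e ∧ (∀ k : ℤ, k ≠ 0 → ∀ x : (𝟙_ T)⟦k⟧ ⟶ H₀, x = 0) ∧
      ∀ D : T, PComp p D → Above 1 D → ∀ x : 𝟙_ T ⟶ D, ∃ c : H₀ ⟶ D, e₀ ≫ c = x := by
  let z0 : (𝟙_ T)⟦(0 : ℤ)⟧ ≅ 𝟙_ T := (shiftFunctorZero T ℤ).app (𝟙_ T)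
  have hunit : Conn (0 : ℤ) (𝟙_ T) := unit_conn F
  -- homotopy groups of `H₀`
  have hpk : ∀ k : ℤ, k ≠ 0 → ∀ x : (𝟙_ T)⟦k⟧ ⟶ H₀, x = 0 := by
    intro k hk x
    refine pi_eq_zero_of_surj' hH₀ (fun x => ?_) x
    obtain ⟨y, hy⟩ := D₀.lift₂ x (he.h0 k hk _)
    exact ⟨y, by rw [← hy, Preadditive.comp_zsmul, Category.comp_id]⟩
  -- `p` is injective on `π_0 H₀`
  have hinj0 : ∀ x : (𝟙_ T)⟦(0 : ℤ)⟧ ⟶ H₀, (p : ℤ) • x = 0 → x = 0 := by
    intro x hx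
    obtain ⟨a, b, D'⟩ := Dist.invRot' D₀
    obtain ⟨y, hy⟩ := D'.lift₂ x (by rw [Preadditive.comp_zsmul, Category.comp_id, hx])
    obtain ⟨u, hu⟩ := sphere_shift (l := 1) (m := -1) (k := 0) (by norm_num) y
    rw [← hy, hu, he.h0 1 one_ne_zero u, Functor.map_zero, comp_zero, zero_comp]
  -- `e` lifts
  have heh : e ≫ h = 0 := by
    obtain ⟨u, hu⟩ := sphere_shift (l := -1) (m := 1) (k := 0) (by norm_num) (z0.hom ≫ e ≫ h)
    rw [hpk (-1) (by norm_num) u, Functor.map_zero, comp_zero] at hu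
    rw [← cancel_epi z0.hom, hu, comp_zero]
  obtain ⟨e₀, he₀⟩ := D₀.lift₃ e heh
  refine ⟨e₀, he₀, hpk, ?_⟩
  have hinjZ : ∀ (s : ℕ) (x : 𝟙_ T ⟶ H₀), ((p : ℤ) ^ s) • x = 0 → x = 0 := by
    intro s x hx
    induction s with
    | zero => simpa using hx
    | succ s ih =>
      apply ih
      have h1 := hinj0 (z0.hom ≫ ((p : ℤ) ^ s • x)) (by
        rw [← Preadditive.comp_zsmul, ← mul_smul, ← pow_succ', hx, comp_zero])
      rw [← cancel_epi z0.hom, h1, comp_zero]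
  have hNe : ∀ N : ℤ, N • e₀ = 0 → N = 0 := by
    intro N hN
    by_contra hN0
    obtain ⟨s, N', hN', hNs⟩ := Nat.exists_eq_pow_mul_and_not_dvd
      (Int.natAbs_ne_zero.2 hN0) p hp.ne_one
    have h1 : ((N.natAbs : ℕ) : ℤ) • e₀ = 0 := by
      rcases Int.natAbs_eq N with h2 | h2
      · rw [← h2, hN]
      · have h3 : ((N.natAbs : ℕ) : ℤ) = -N := by omega
        rw [h3, neg_smul, hN, neg_zero]
    rw [hNs] at h1
    push_cast at h1
    rw [mul_smul] at h1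
    have h2 := hinjZ s _ h1
    have h3 : (N' : ℤ) • e = 0 := by
      rw [← he₀, ← Preadditive.zsmul_comp, h2, zero_comp]
    exact hN' (by exact_mod_cast dvd_of_smul_eq_zero hp he.he he.hpe h3)
  -- the cofibre of `e₀`
  obtain ⟨J, j, w, DJ⟩ := exists_cone e₀
  have hJneg : ∀ k : ℤ, k < 0 → ∀ z : (𝟙_ T)⟦k⟧ ⟶ J, z = 0 := by
    intro k hk z
    obtain ⟨l, rfl⟩ : ∃ l : ℤ, k = l + 1 := ⟨k - 1, by ring⟩
    obtain ⟨m, -, hz⟩ := les DJ (l := l) rfl z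
    obtain ⟨y, rfl⟩ := hz (hunit l (by omega) m)
    rw [hpk (l + 1) hk.ne y, zero_comp]
  have hJone : ∀ z : (𝟙_ T)⟦(1 : ℤ)⟧ ⟶ J, z = 0 := by
    intro z
    obtain ⟨m, hm, hz⟩ := les DJ (l := 0) (k := 1) (by norm_num) z
    obtain ⟨N, hN⟩ := exists_int_unit F (z0.inv ≫ m)
    have hm' : m = N • z0.hom := by
      have h1 : m = z0.hom ≫ z0.inv ≫ m := (z0.hom_inv_id_assoc m).symm
      rw [h1, hN, Preadditive.comp_zsmul, Category.comp_id]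
    have h2 : N • e₀ = 0 := by
      have h3 : z0.inv ≫ m ≫ e₀ = 0 := by rw [hm, comp_zero]
      rw [hm'] at h3
      simpa using h3
    have h3 : m = 0 := by rw [hm', hNe N h2, zero_smul]
    obtain ⟨y, rfl⟩ := hz h3
    rw [hpk 1 one_ne_zero y, zero_comp]
  -- every class of `π_0 J` comes from `H₀`
  have hJ0 : ∀ z : (𝟙_ T)⟦(0 : ℤ)⟧ ⟶ J, ∃ y : 𝟙_ T ⟶ H₀, z = z0.hom ≫ y ≫ j := by
    intro z
    obtain ⟨m, -, hz⟩ := les DJ (l := -1) (k := 0) (by norm_num) z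
    obtain ⟨y, rfl⟩ := hz (hunit (-1) (by norm_num) m)
    exact ⟨z0.inv ≫ y, by simp⟩
  have hJsurj : ∀ z : (𝟙_ T)⟦(0 : ℤ)⟧ ⟶ J, ∃ z' : (𝟙_ T)⟦(0 : ℤ)⟧ ⟶ J, (p : ℤ) • z' = z := by
    intro z
    obtain ⟨y, rfl⟩ := hJ0 z
    obtain ⟨m, hm⟩ := he.hgen (y ≫ g)
    obtain ⟨b, hb⟩ := D₀.lift₂ (y - m • e₀) (by
      rw [Preadditive.sub_comp, hm, Preadditive.zsmul_comp, he₀, sub_self])
    rw [Preadditive.comp_zsmul, Category.comp_id] at hb
    refine ⟨z0.hom ≫ b ≫ j, ?_⟩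
    rw [← Preadditive.comp_zsmul, ← Preadditive.zsmul_comp, hb, Preadditive.sub_comp,
      Preadditive.zsmul_comp, DJ.zero₁₂, zsmul_zero, sub_zero]
  have hJinj : ∀ z : (𝟙_ T)⟦(0 : ℤ)⟧ ⟶ J, (p : ℤ) • z = 0 → z = 0 := by
    intro z hz
    obtain ⟨y, rfl⟩ := hJ0 z
    have h1 : ((p : ℤ) • y) ≫ j = 0 := by
      rw [← Preadditive.comp_zsmul, ← Preadditive.zsmul_comp] at hz
      rw [← cancel_epi z0.hom, hz, comp_zero]
    obtain ⟨n', hn'⟩ := DJ.lift₂ _ h1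
    obtain ⟨n, rfl⟩ := exists_int_unit F n'
    rw [Preadditive.zsmul_comp, Category.id_comp] at hn'
    have h2 : n • e = 0 := by
      have hpg : (p : ℤ) • g = 0 := by
        have h3 := D₀.zero₁₂
        rwa [Preadditive.zsmul_comp, Category.id_comp] at h3
      rw [← he₀, ← Preadditive.zsmul_comp, hn', Preadditive.zsmul_comp,
        ← Preadditive.comp_zsmul, hpg, comp_zero]
    obtain ⟨r, rfl⟩ := dvd_of_smul_eq_zero hp he.he he.hpe h2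
    have h3 : ((p : ℤ) ^ 1) • (y - r • e₀) = 0 := by
      rw [pow_one, smul_sub, ← hn', mul_smul, sub_self]
    have h4 := hinjZ 1 _ h3
    rw [sub_eq_zero] at h4
    rw [h4, Preadditive.zsmul_comp, DJ.zero₁₂, zsmul_zero, comp_zero]
  -- the cover of `J` at level 2
  obtain ⟨C, J2, a, f, w', DC, hC, hJ2⟩ := exists_cover 2 J
  have hC2 : Conn 2 C := conn_of_bigCell F hC
  have hC3 : Conn 3 (C⟦(1 : ℤ)⟧) := hC2.shift 1 3 (by norm_num)
  have hlow : ∀ (k : ℤ), k < 2 → ∀ y : (𝟙_ T)⟦k⟧ ⟶ J2, ∃ z : (𝟙_ T)⟦k⟧ ⟶ J, z ≫ f = y :=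
    fun k hk y => DC.lift₃ y (hC3 k (by omega) _)
  have hlow' : ∀ (k : ℤ), k < 2 → ∀ z : (𝟙_ T)⟦k⟧ ⟶ J, z ≫ f = 0 → z = 0 := by
    intro k hk z hz
    obtain ⟨u, rfl⟩ := DC.lift₂ z hz
    rw [hC2 k hk u, zero_comp]
  have hiso : IsIso ((p : ℤ) • 𝟙 J2) := by
    refine isIso_zsmul_of_bij ?_ ?_
    · intro k x hx
      rcases lt_or_ge k 2 with hk | hk
      · obtain ⟨z, rfl⟩ := hlow k hk x
        by_cases hk0 : k = 0
        · subst hk0
          rw [hJinj z (hlow' 0 hk _ (by rw [Preadditive.zsmul_comp, hx])), zero_comp]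
        · by_cases hk1 : k = 1
          · subst hk1
            rw [hJone z, zero_comp]
          · rw [hJneg k (by omega) z, zero_comp]
      · exact hJ2 k hk x
    · intro k y
      rcases lt_or_ge k 2 with hk | hk
      · obtain ⟨z, rfl⟩ := hlow k hk y
        by_cases hk0 : k = 0
        · subst hk0
          obtain ⟨z', rfl⟩ := hJsurj z
          exact ⟨z' ≫ f, by rw [Preadditive.zsmul_comp]⟩
        · by_cases hk1 : k = 1
          · subst hk1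
            exact ⟨0, by rw [hJone z, zero_comp, smul_zero]⟩
          · exact ⟨0, by rw [hJneg k (by omega) z, zero_comp, smul_zero]⟩
      · exact ⟨0, by rw [hJ2 k hk y, smul_zero]⟩
  intro D hD hDA x
  obtain ⟨a₀, b₀, D'⟩ := Dist.invRot' DJ
  have key : a₀ ≫ x = 0 := by
    -- the shifted cover
    obtain ⟨w2, hw2⟩ := exists_dist_shift DC (-1)
    have hB : BigCell T 1 (C⟦(-1 : ℤ)⟧) := hC.shift (-1) 1 (by norm_num)
    obtain ⟨t, ht⟩ := Triangle.yoneda_exact₂ _ hw2 (a₀ ≫ x) (hom_eq_zero hB hDA _)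
    have hiso' : IsIso ((p : ℤ) • 𝟙 (J2⟦(-1 : ℤ)⟧)) := by
      have h1 : (p : ℤ) • 𝟙 (J2⟦(-1 : ℤ)⟧) = ((p : ℤ) • 𝟙 J2)⟦(-1 : ℤ)⟧' := by
        rw [Functor.map_zsmul, CategoryTheory.Functor.map_id]
      rw [h1]
      infer_instance
    have ht0 : t = 0 := hD _ hiso' t
    exact ht.trans (by rw [ht0]; exact comp_zero)
  exact D'.desc₂ x key

end

end Vale.Agent.P221
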