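import Vale.Agent.P221.H72.Defs2

/-!
# P221, row R3: bounded `p`-complete spectra with finite homotopy modulo `p` are in `Thick(Hℤ_p)`
-/

open CategoryTheory MonoidalCategory Limits Pretriangulated
open Vale.Agent.P251.T Vale.Agent.P251.S Vale.Agent.P251.H Vale.Agent.P251.M
  Vale.Agent.P251.I Vale.Agent.P251.X

universe v u

set_option linter.unusedSectionVars false

namespace Vale.Agent.P221

variable {T : Type u} [Category.{v} T] [Preadditive T] [HasZeroObject T]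
    [HasShift T ℤ] [∀ n : ℤ, (shiftFunctor T n).Additive] [Pretriangulated T] [IsTriangulated T]
    [MonoidalCategory T] [SymmetricCategory T] [TensorTriangulated T] [MonoidalClosed T]
    [HasCoproducts.{0} T] [HasProducts.{0} T] [StableCat T]

/-- transport of a distinguished triangle -/
theorem dist_of_iso {X Y Z X' Y' Z' : T} {f : X ⟶ Y} {g : Y ⟶ Z} {h : Z ⟶ X⟦(1 : ℤ)⟧}
    (D : Dist f g h) (a : X ≅ X') (b : Y ≅ Y') (c : Z ≅ Z') {f' : X' ⟶ Y'} {g' : Y' ⟶ Z'}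
    (hf : f ≫ b.hom = a.hom ≫ f') (hg : g ≫ c.hom = b.hom ≫ g') :
    ∃ h' : Z' ⟶ X'⟦(1 : ℤ)⟧, Dist f' g' h' := by
  refine ⟨c.inv ≫ h ≫ a.hom⟦(1 : ℤ)⟧', ?_⟩
  refine isomorphic_distinguished _ D _ (Triangle.isoMk _ _ a.symm b.symm c.symm ?_ ?_ ?_)
  · show f' ≫ b.inv = a.inv ≫ f
    rw [Iso.comp_inv_eq, Category.assoc, hf, Iso.inv_hom_id_assoc]
  · show g' ≫ c.inv = b.inv ≫ g
    rw [Iso.comp_inv_eq, Category.assoc, hg, Iso.inv_hom_id_assoc]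
  · show (c.inv ≫ h ≫ a.hom⟦(1 : ℤ)⟧') ≫ a.inv⟦(1 : ℤ)⟧' = c.inv ≫ h
    rw [Category.assoc, Category.assoc, ← Functor.map_comp, a.hom_inv_id,
      CategoryTheory.Functor.map_id, Category.comp_id]

/-- the reduction map `X ⟶ M ⊗ X` -/
noncomputable def red {M : T} (i : 𝟙_ T ⟶ M) (X : T) : X ⟶ M ⊗ X := (λ_ X).inv ≫ (i ▷ X)

theorem red_nat {M : T} (i : 𝟙_ T ⟶ M) {X Y : T} (c : X ⟶ Y) :
    c ≫ red i Y = red i X ≫ (M ◁ c) := by
  unfold red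
  rw [← Category.assoc, leftUnitor_inv_naturality, Category.assoc, Category.assoc,
    whisker_exchange]

theorem dist_red {p : ℕ} {M : T} {i : 𝟙_ T ⟶ M} {q : M ⟶ (𝟙_ T)⟦(1 : ℤ)⟧}
    (DM : Dist ((p : ℤ) • 𝟙 (𝟙_ T)) i q) (X : T) :
    ∃ r : M ⊗ X ⟶ X⟦(1 : ℤ)⟧, Dist ((p : ℤ) • 𝟙 X) (red i X) r := by
  have h1 : Dist (X ◁ ((p : ℤ) • 𝟙 (𝟙_ T))) (X ◁ i) _ :=
    TensorTriangulated.distinguished X _ DM
  refine dist_of_iso h1 (ρ_ X) (ρ_ X) (β_ X M) ?_ ?_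
  · have h2 : X ◁ ((p : ℤ) • 𝟙 (𝟙_ T)) = (p : ℤ) • 𝟙 (X ⊗ 𝟙_ T) := by
      have h3 : (tensorLeft X).map ((p : ℤ) • 𝟙 (𝟙_ T)) = (p : ℤ) • (tensorLeft X).map (𝟙 (𝟙_ T)) :=
        (tensorLeft X).map_zsmul
      rw [CategoryTheory.Functor.map_id] at h3
      exact h3
    rw [h2, Preadditive.zsmul_comp, Category.id_comp, Preadditive.comp_zsmul, Category.comp_id]
  · unfold red
    rw [BraidedCategory.braiding_naturality_right, braiding_tensorUnit_right, Category.assoc]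

section

variable {p : ℕ} {M : T} {i : 𝟙_ T ⟶ M} {q : M ⟶ (𝟙_ T)⟦(1 : ℤ)⟧}

theorem zsmul_red (DM : Dist ((p : ℤ) • 𝟙 (𝟙_ T)) i q) {X W : T} (x : W ⟶ X) :
    ((p : ℤ) • x) ≫ red i X = 0 := by
  obtain ⟨r, D⟩ := dist_red DM X
  have h1 := D.zero₁₂
  rw [Preadditive.zsmul_comp, Category.id_comp] at h1
  rw [Preadditive.zsmul_comp, ← Preadditive.comp_zsmul, h1, comp_zero]

theorem exists_of_red (DM : Dist ((p : ℤ) • 𝟙 (𝟙_ T)) i q) {X W : T} (x : W ⟶ X)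
    (hx : x ≫ red i X = 0) : ∃ y : W ⟶ X, (p : ℤ) • y = x := by
  obtain ⟨r, D⟩ := dist_red DM X
  obtain ⟨y, hy⟩ := D.lift₂ x hx
  exact ⟨y, by rw [← hy, Preadditive.comp_zsmul, Category.comp_id]⟩

/-- `π_k (M ⊗ X)` in terms of `π_k X` and `π_{k-1} X` -/
theorem pi_red (DM : Dist ((p : ℤ) • 𝟙 (𝟙_ T)) i q) {X : T} {k l : ℤ} (hl : l + 1 = k)
    (h : ∀ x : (𝟙_ T)⟦l⟧ ⟶ X, (p : ℤ) • x = 0 → x = 0) (z : (𝟙_ T)⟦k⟧ ⟶ M ⊗ X) :
    ∃ y : (𝟙_ T)⟦k⟧ ⟶ X, y ≫ red i X = z := by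
  obtain ⟨r, D⟩ := dist_red DM X
  obtain ⟨x, hx, h1⟩ := les D hl z
  refine h1 (h x ?_)
  rw [← hx, Preadditive.comp_zsmul, Category.comp_id]

theorem above_red (DM : Dist ((p : ℤ) • 𝟙 (𝟙_ T)) i q) {X : T} {b : ℤ} (hX : Above b X) :
    Above (b + 1) (M ⊗ X) := by
  intro k hk z
  obtain ⟨y, rfl⟩ := pi_red DM (l := k - 1) (by ring) (fun x _ => hX _ (by omega) x) z
  rw [hX k (by omega) y, zero_comp]

end

theorem PComp.shift {p : ℕ} {X : T} (hX : PComp p X) (m : ℤ) : PComp p (X⟦m⟧) := by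
  intro W hW f
  let e : X⟦m⟧⟦-m⟧ ≅ X := (shiftFunctorCompIsoId T m (-m) (by simp)).app X
  have h1 : IsIso ((p : ℤ) • 𝟙 (W⟦-m⟧)) := by
    have h2 : (p : ℤ) • 𝟙 (W⟦-m⟧) = ((p : ℤ) • 𝟙 W)⟦-m⟧' := by
      rw [Functor.map_zsmul, CategoryTheory.Functor.map_id]
    rw [h2]
    infer_instance
  have h3 : f⟦-m⟧' ≫ e.hom = 0 := hX _ h1 _
  have h4 : f⟦-m⟧' = 0 := by rw [← cancel_mono e.hom, h3, zero_comp]
  exact (shiftFunctor T (-m)).map_injective (by rw [h4, Functor.map_zero])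

theorem PComp.cof {p : ℕ} {X Y Z : T} {f : X ⟶ Y} {g : Y ⟶ Z} {h : Z ⟶ X⟦(1 : ℤ)⟧}
    (D : Dist f g h) (hX : PComp p X) (hY : PComp p Y) : PComp p Z := by
  intro W hW z
  obtain ⟨y, rfl⟩ := D.lift₃ z (hX.shift 1 W hW _)
  rw [hY W hW y, zero_comp]

/-- ROW R3, core: L1 and the extension property as hypotheses. -/
theorem emz_core {p : ℕ} (hp : p.Prime) {M : T} {i : 𝟙_ T ⟶ M} {q : M ⟶ (𝟙_ T)⟦(1 : ℤ)⟧}
    (DM : Dist ((p : ℤ) • 𝟙 (𝟙_ T)) i q) {H H₀ : T} {e : 𝟙_ T ⟶ H} (he : EMp p e)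
    (hH₀ : PComp p H₀) {g : H₀ ⟶ H} {h : H ⟶ H₀⟦(1 : ℤ)⟧} (D₀ : Dist ((p : ℤ) • 𝟙 H₀) g h)
    (hL1 : ∀ (X : T), PComp p X → ∀ k : ℤ,
      (∀ x : (𝟙_ T)⟦k⟧ ⟶ X, ∃ y : (𝟙_ T)⟦k⟧ ⟶ X, (p : ℤ) • y = x) →
      ∀ x : (𝟙_ T)⟦k⟧ ⟶ X, x = 0)
    {e₀ : 𝟙_ T ⟶ H₀} (heg : e₀ ≫ g = e)
    (hZ1 : ∀ k : ℤ, k ≠ 0 → ∀ x : (𝟙_ T)⟦k⟧ ⟶ H₀, x = 0)
    (hext : ∀ D : T, PComp p D → Above 1 D → ∀ x : 𝟙_ T ⟶ D, ∃ c : H₀ ⟶ D, e₀ ≫ c = x)
    {D : T} (hD : PComp p D) (hMD : FT p (M ⊗ D)) {a b : ℤ} (ha : Conn a D) (hb : Above b D) :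
    Thick (fun X => X = H₀) D := by
  -- `π_0 H₀` is torsion free
  have hZ2 : ∀ y : 𝟙_ T ⟶ H₀, (p : ℤ) • y = 0 → y = 0 := by
    intro y hy
    let s : (𝟙_ T)⟦(0 : ℤ)⟧ ≅ 𝟙_ T := (shiftFunctorZero T ℤ).app (𝟙_ T)
    have h1 : Above 1 H := fun k hk f => he.h0 k (by omega) f
    have h2 : s.hom ≫ y = 0 := by
      refine inj_of_above D₀ h1 (k := 0) (by norm_num) _ ?_
      rw [Preadditive.comp_zsmul, Category.comp_id, ← Preadditive.comp_zsmul, hy, comp_zero]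
    rw [← cancel_epi s.hom, h2, comp_zero]
  -- `π_0 H₀ / p` is generated by `e₀`
  have hZ3 : ∀ y : 𝟙_ T ⟶ H₀, ∃ (n : ℤ) (y' : 𝟙_ T ⟶ H₀), y = n • e₀ + (p : ℤ) • y' := by
    intro y
    obtain ⟨n, hn⟩ := he.hgen (y ≫ g)
    obtain ⟨y', hy'⟩ := D₀.lift₂ (y - n • e₀) (by
      rw [Preadditive.sub_comp, Preadditive.zsmul_comp, heg, hn, sub_self])
    refine ⟨n, y', ?_⟩
    rw [Preadditive.comp_zsmul, Category.comp_id] at hy'
    rw [hy']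
    abel
  -- the shifts of `H₀`
  have hY1 : ∀ b k : ℤ, k ≠ b → ∀ x : (𝟙_ T)⟦k⟧ ⟶ H₀⟦b⟧, x = 0 := by
    intro b k hk x
    obtain ⟨y, rfl⟩ := sphere_shift (l := k - b) (by ring) x
    rw [hZ1 (k - b) (by omega) y, Functor.map_zero, comp_zero]
  have hY2 : ∀ (b : ℤ) (x : (𝟙_ T)⟦b⟧ ⟶ H₀⟦b⟧), (p : ℤ) • x = 0 → x = 0 := by
    intro b x hx
    obtain ⟨y, rfl⟩ := (shiftFunctor T b).map_surjective x
    rw [← Functor.map_zsmul] at hx
    have h1 : (p : ℤ) • y = 0 := (shiftFunctor T b).map_injective (by rw [hx, Functor.map_zero])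
    rw [hZ2 y h1, Functor.map_zero]
  have hY3 : ∀ (b : ℤ) (x : (𝟙_ T)⟦b⟧ ⟶ H₀⟦b⟧), ∃ (n : ℤ) (x' : (𝟙_ T)⟦b⟧ ⟶ H₀⟦b⟧),
      x = n • e₀⟦b⟧' + (p : ℤ) • x' := by
    intro b x
    obtain ⟨y, rfl⟩ := (shiftFunctor T b).map_surjective x
    obtain ⟨n, y', hy⟩ := hZ3 y
    refine ⟨n, y'⟦b⟧', ?_⟩
    conv_lhs => rw [hy]
    rw [Functor.map_add, Functor.map_zsmul, Functor.map_zsmul]
  -- the homotopy of `M ⊗ H₀⟦b⟧`
  have hMH : ∀ (b k : ℤ) (z : (𝟙_ T)⟦k⟧ ⟶ M ⊗ H₀⟦b⟧),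
      ∃ y : (𝟙_ T)⟦k⟧ ⟶ H₀⟦b⟧, y ≫ red i _ = z := by
    intro b k z
    refine pi_red DM (l := k - 1) (by ring) (fun x hx => ?_) z
    by_cases hk : k - 1 = b
    · subst hk
      exact hY2 _ x hx
    · exact hY1 b _ hk x
  -- the induction
  have key : ∀ (N : ℕ) (a b' : ℤ) (D : T), PComp p D → FT p (M ⊗ D) → Conn a D →
      Above b' (M ⊗ D) → ∑ k ∈ Finset.Ico a b', Nat.card ((𝟙_ T)⟦k⟧ ⟶ M ⊗ D) = N →
      Thick (fun X => X = H₀) D := by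
    intro N
    induction N using Nat.strong_induction_on with
    | _ N ih =>
    intro a b' D hD hMD ha hb' hN
    have hbD : Above b' D := by
      intro k hk
      refine hL1 D hD k fun x => ?_
      exact exists_of_red DM x (hb' k hk _)
    by_cases hz : ∀ (k : ℤ) (f : (𝟙_ T)⟦k⟧ ⟶ D), f = 0
    · exact .zero (StableCat.generator D hz)
    push Not at hz
    -- the top degree
    obtain ⟨b, hb1, hb2⟩ := Int.exists_greatest_of_bdd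
      (P := fun k : ℤ => ∃ f : (𝟙_ T)⟦k⟧ ⟶ D, f ≠ 0)
      ⟨b', fun k ⟨f, hf⟩ => by
        by_contra hk
        exact hf (hbD k (by omega) f)⟩ hz
    have hab : a ≤ b := by
      obtain ⟨f, hf⟩ := hb1
      by_contra hk
      exact hf (ha b (by omega) f)
    have hbb : b < b' := by
      obtain ⟨f, hf⟩ := hb1
      by_contra hk
      exact hf (hbD b (by omega) f)
    have hAb : Above (b + 1) D := by
      intro k hk f
      by_contra hf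
      have := hb2 k ⟨f, hf⟩
      omega
    -- an element which is not divisible by `p`
    obtain ⟨x, hx⟩ : ∃ x : (𝟙_ T)⟦b⟧ ⟶ D, ∀ y : (𝟙_ T)⟦b⟧ ⟶ D, (p : ℤ) • y ≠ x := by
      by_contra hcon
      push Not at hcon
      obtain ⟨f, hf⟩ := hb1
      exact hf (hL1 D hD b hcon f)
    have hxr : x ≫ red i D ≠ 0 := by
      intro h0
      obtain ⟨y, hy⟩ := exists_of_red DM x h0
      exact hx y hy
    -- the map `c`
    obtain ⟨c, hc⟩ : ∃ c : H₀⟦b⟧ ⟶ D, e₀⟦b⟧' ≫ c = x := by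
      let eD : (D⟦-b⟧)⟦b⟧ ≅ D := (shiftFunctorCompIsoId T (-b) b (by simp)).app D
      obtain ⟨x', hx'⟩ := (shiftFunctor T b).map_surjective (X := 𝟙_ T) (Y := D⟦-b⟧)
        (x ≫ eD.inv)
      obtain ⟨c', hc'⟩ := hext (D⟦-b⟧) (hD.shift (-b)) (hAb.shift (-b) 1 (by ring)) x'
      refine ⟨c'⟦b⟧' ≫ eD.hom, ?_⟩
      rw [← Category.assoc, ← Functor.map_comp, hc', hx', Category.assoc, eD.inv_hom_id,
        Category.comp_id]
    obtain ⟨D'', γ, γ', Dc⟩ := exists_cone c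
    have DMc : Dist (M ◁ c) (M ◁ γ) _ := TensorTriangulated.distinguished M _ Dc
    -- injectivity
    have hI : ∀ (k : ℤ) (z : (𝟙_ T)⟦k⟧ ⟶ M ⊗ H₀⟦b⟧), z ≫ (M ◁ c) = 0 → z = 0 := by
      intro k z hz
      obtain ⟨y, rfl⟩ := hMH b k z
      by_cases hk : k = b
      · subst hk
        obtain ⟨n, y', hy⟩ := hY3 k y
        have h1 : y ≫ red i _ = n • (e₀⟦k⟧' ≫ red i _) := by
          rw [hy, Preadditive.add_comp, zsmul_red DM, add_zero, Preadditive.zsmul_comp]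
        have h2 : n • (x ≫ red i D) = 0 := by
          rw [h1, Preadditive.zsmul_comp, Category.assoc, ← red_nat, ← Category.assoc, hc] at hz
          exact hz
        have h3 : (p : ℤ) • (x ≫ red i D) = 0 := by
          rw [← Preadditive.zsmul_comp]
          exact zsmul_red DM x
        have h4 : (p : ℤ) ∣ n := by
          by_contra hpn
          have hcop : IsCoprime (p : ℤ) n :=
            (Nat.prime_iff_prime_int.1 hp).coprime_iff_not_dvd.2 hpn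
          obtain ⟨u, w, huw⟩ := hcop
          apply hxr
          calc x ≫ red i D = (1 : ℤ) • (x ≫ red i D) := (one_smul _ _).symm
            _ = u • ((p : ℤ) • (x ≫ red i D)) + w • (n • (x ≫ red i D)) := by
                rw [← huw, add_smul, mul_smul, mul_smul]
            _ = 0 := by rw [h2, h3, smul_zero, smul_zero, add_zero]
        obtain ⟨n', rfl⟩ := h4
        rw [h1, mul_comm, mul_smul, ← Preadditive.zsmul_comp, zsmul_red DM, smul_zero]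
      · rw [hY1 b k hk y, zero_comp]
    -- surjectivity
    have hS : ∀ k : ℤ, Function.Surjective
        (fun y : (𝟙_ T)⟦k⟧ ⟶ M ⊗ D => y ≫ (M ◁ γ)) := by
      intro k w
      obtain ⟨t, ht, h1⟩ := les DMc (l := k - 1) (by ring) w
      exact h1 (hI _ t ht)
    have hMD'' : FT p (M ⊗ D'') := by
      intro k
      obtain ⟨hf, ht⟩ := hMD k
      refine ⟨Finite.of_surjective _ (hS k), fun w => ?_⟩
      obtain ⟨y, rfl⟩ := hS k w
      obtain ⟨n, hn⟩ := ht y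
      refine ⟨n, ?_⟩
      change ((p : ℤ) ^ n) • (y ≫ (M ◁ γ)) = 0
      rw [← Preadditive.zsmul_comp, hn, zero_comp]
    have haD'' : Conn a D'' := by
      intro k hk z
      obtain ⟨t, -, h1⟩ := les Dc (l := k - 1) (by ring) z
      obtain ⟨y, rfl⟩ := h1 (hY1 b _ (by omega) t)
      rw [ha k hk y, zero_comp]
    have hbD'' : Above b' (M ⊗ D'') := by
      intro k hk w
      obtain ⟨y, rfl⟩ := hS k w
      change y ≫ (M ◁ γ) = 0
      rw [hb' k hk y, zero_comp]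
    have hlt : ∑ k ∈ Finset.Ico a b', Nat.card ((𝟙_ T)⟦k⟧ ⟶ M ⊗ D'') < N := by
      rw [← hN]
      refine Finset.sum_lt_sum (fun k _ => ?_) ⟨b, Finset.mem_Ico.2 ⟨hab, hbb⟩, ?_⟩
      · have := (hMD k).1
        exact Nat.card_le_card_of_surjective _ (hS k)
      · have := (hMD b).1
        by_contra hcon
        have hbij := (hS b).bijective_of_nat_card_le (not_lt.1 hcon)
        apply hxr
        apply hbij.1
        change (x ≫ red i D) ≫ (M ◁ γ) = 0 ≫ (M ◁ γ)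
        have h5 : x ≫ γ = 0 := by rw [← hc, Category.assoc, Dc.zero₁₂, comp_zero]
        rw [zero_comp, Category.assoc, ← red_nat, ← Category.assoc, h5, zero_comp]
    have hT : Thick (fun X => X = H₀) D'' :=
      ih _ hlt a b' D'' ((hH₀.shift b).cof Dc hD) hMD'' haD'' hbD'' rfl
    have hT₀ : Thick (fun X => X = H₀) (H₀⟦b⟧) := Thick.shift b (Thick.base rfl)
    exact Thick.cof₂ Dc hT₀ hT
  exact key _ a (b + 1) D hD hMD ha (above_red DM hb) rfl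

end Vale.Agent.P221
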