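import Vale.Agent.P221.H72.Defs
import Vale.Agent.P257.H702.Statement

/-!
# P221: smashing with finite `p`-local spectra

* `thick_fin_tensor`: if `F` is a finite `p`-local spectrum and `B` is `p`-local, then `F ⊗ B` lies
  in the thick subcategory generated by `B`.
-/

open CategoryTheory MonoidalCategory Limits Pretriangulated
open Vale.Agent.P251.T Vale.Agent.P251.S
open Vale.Agent.P251.St Vale.Agent.P251.St.SHCat Vale.Agent.P257.St

set_option linter.unusedSectionVars false

noncomputable section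

namespace Vale.Agent.P221

variable {T : SHCat}

/-- `F ⊗ B` is in the thick subcategory generated by `B` if `F` is finite. -/
theorem thick_finSp_tensor {F B : T.C} (hF : FinSp F) : Thick (fun X => X = B) (F ⊗ B) := by
  induction hF with
  | zero h0 =>
    exact .zero ((tensorRight B).map_isZero ((IsZero.iff_id_eq_zero _).2 h0))
  | @cell X Y k f g h hd hX ih =>
    have h1 := dist_whiskerRight B hd
    exact .cof h1 (Thick.of_iso (sphTensor k B).symm (.shift k (.base rfl))) ih

/-- `A ⊗ B` is `p`-local if `A` is `p`-local. -/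
theorem pLocal_tensor {p : ℕ} {A : T.C} (hA : PLocal p A) (B : T.C) : PLocal p (A ⊗ B) := by
  intro m hm
  have h1 : IsIso (m • 𝟙 A) := hA m hm
  have h2 : (m • 𝟙 A) ▷ B = m • 𝟙 (A ⊗ B) := by
    have h := (tensorRight B).map_zsmul (f := 𝟙 A) (r := m)
    exact h.trans (congrArg _ (id_whiskerRight A B))
  change IsIso (m • 𝟙 (A ⊗ B))
  rw [← h2]
  infer_instance

/-- `[A, Z]` is `p`-local if `Z` is `p`-local. -/
theorem pLocal_ihom {p : ℕ} {Z : T.C} (hZ : PLocal p Z) (A : T.C) :
    PLocal p ((ihom A).obj Z) := by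
  intro m hm
  have h1 : IsIso (m • 𝟙 Z) := hZ m hm
  have h3 : (ihom A).Additive := (ihom.adjunction A).right_adjoint_additive
  have h2 : (ihom A).map (m • 𝟙 Z) = m • 𝟙 ((ihom A).obj Z) := by
    rw [Functor.map_zsmul, CategoryTheory.Functor.map_id]
  change IsIso (m • 𝟙 ((ihom A).obj Z))
  rw [← h2]
  infer_instance

/-- `A ⊗ l` is an isomorphism if `l` is a `p`-localization and `A` is `p`-local. -/
theorem isIso_whiskerLeft {p : ℕ} {A F Y : T.C} {l : Hom F Y} (hl : IsPLocalization p l)
    (hA : PLocal p A) : IsIso (A ◁ l) := by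
  have key : ∀ Z : T.C, PLocal p Z → ∀ f : A ⊗ F ⟶ Z, ∃! g : A ⊗ Y ⟶ Z, (A ◁ l) ≫ g = f := by
    intro Z hZ f
    obtain ⟨g, hg, hu⟩ := hl.2 _ (pLocal_ihom hZ A) (MonoidalClosed.curry f)
    refine ⟨MonoidalClosed.uncurry g, ?_, ?_⟩
    · change (A ◁ l) ≫ MonoidalClosed.uncurry g = f
      rw [← MonoidalClosed.uncurry_natural_left]
      exact (congrArg MonoidalClosed.uncurry hg).trans (MonoidalClosed.uncurry_curry f)
    · intro g' hg'
      have h := hu (MonoidalClosed.curry g') (by
        change l ≫ MonoidalClosed.curry g' = _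
        rw [← MonoidalClosed.curry_natural_left]
        exact congrArg MonoidalClosed.curry hg')
      rw [← h, MonoidalClosed.uncurry_curry]
  obtain ⟨r, hr, -⟩ := key _ (pLocal_tensor hA F) (𝟙 _)
  obtain ⟨s, -, hs⟩ := key _ (pLocal_tensor hA Y) (A ◁ l)
  refine ⟨r, hr, ?_⟩
  have h1 := hs (r ≫ (A ◁ l)) (by
    have := congrArg (fun x => x ≫ (A ◁ l)) hr
    simpa using this)
  have h2 := hs (𝟙 _) (Category.comp_id _)
  exact h1.trans h2.symm

/-- If `F` is a finite `p`-local spectrum and `B` is `p`-local, then `F ⊗ B` lies in the thick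
subcategory generated by `B`. -/
theorem thick_fin_tensor {T : SHCat} {p : ℕ} {F B : T.C} (hF : FinPLocal p F) (hB : PLocal p B) :
    Thick (fun X => X = B) (F ⊗ B) := by
  obtain ⟨F0, Y, l, i, r, h0, hl, hir⟩ := hF
  have h1 : IsIso (B ◁ l) := isIso_whiskerLeft hl hB
  have h2 : Thick (fun X => X = B) (Y ⊗ B) :=
    Thick.of_iso ((β_ F0 B) ≪≫ asIso (B ◁ l) ≪≫ (β_ B Y)) (thick_finSp_tensor h0)
  refine .retract (i ▷ B) (r ▷ B) ?_ h2
  rw [← comp_whiskerRight]
  exact (congrArg (fun x => x ▷ B) hir).trans (id_whiskerRight F B)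

end Vale.Agent.P221
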