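import Vale.Agent.P221.H72.FTlem

/-!
# P221, row VF: finiteness of homotopy groups from the cofibre of a self map of positive degree
-/

open CategoryTheory MonoidalCategory Limits Pretriangulated
open Vale.Agent.P251.T Vale.Agent.P251.S Vale.Agent.P251.H Vale.Agent.P251.M
  Vale.Agent.P251.I Vale.Agent.P251.X

universe v u

set_option linter.unusedSectionVars false

namespace Vale.Agent.P221

variable {T : Type u} [Category.{v} T] [Preadditive T] [HasZeroObject T]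
    [HasShift T ℤ] [∀ n : ℤ, (shiftFunctor T n).Additive] [Pretriangulated T] [IsTriangulated T]
    [MonoidalCategory T] [SymmetricCategory T] [TensorTriangulated T] [MonoidalClosed T]
    [HasCoproducts.{0} T] [HasProducts.{0} T] [StableCat T] {p : ℕ}

/-- `π_k X` is a finite `p`-group -/
def FTk (p : ℕ) (k : ℤ) (X : T) : Prop :=
  Finite ((𝟙_ T)⟦k⟧ ⟶ X) ∧ ∀ f : (𝟙_ T)⟦k⟧ ⟶ X, ∃ N : ℕ, ((p : ℤ) ^ N) • f = 0

theorem FTk.shift {X : T} {l m k : ℤ} (h : l + m = k) (hX : FTk p l X) : FTk p k (X⟦m⟧) := by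
  let e := (shiftFunctorAdd' T l m k h).app (𝟙_ T)
  constructor
  · have := hX.1
    refine Finite.of_surjective
      (fun x : (𝟙_ T)⟦l⟧ ⟶ X => (e.hom ≫ x⟦m⟧' : (𝟙_ T)⟦k⟧ ⟶ X⟦m⟧)) fun z => ?_
    obtain ⟨x, rfl⟩ := sphere_shift h z
    exact ⟨x, rfl⟩
  · intro z
    obtain ⟨x, rfl⟩ := sphere_shift h z
    obtain ⟨N, hN⟩ := hX.2 x
    refine ⟨N, ?_⟩
    rw [← Preadditive.comp_zsmul, ← Functor.map_zsmul, hN, Functor.map_zero, comp_zero]

theorem FTk.ext {X Y Z : T} {f : X ⟶ Y} {g : Y ⟶ Z} {h : Z ⟶ X⟦(1 : ℤ)⟧}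
    (D : Dist f g h) {k : ℤ} (hX : FTk p k X) (hZ : FTk p k Z) : FTk p k Y := by
  constructor
  · have h1 := hX.1
    have h2 := hZ.1
    have h3 : (Set.univ : Set ((𝟙_ T)⟦k⟧ ⟶ Y)).Finite := by
      refine Set.Finite.of_finite_fibers (fun y : (𝟙_ T)⟦k⟧ ⟶ Y => y ≫ g) (Set.toFinite _) ?_
      rintro _ ⟨y₀, -, rfl⟩
      refine (Set.finite_range (fun x : (𝟙_ T)⟦k⟧ ⟶ X => y₀ + x ≫ f)).subset ?_
      rintro y ⟨-, hy⟩
      change y ≫ g = y₀ ≫ g at hy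
      obtain ⟨x, hx⟩ := D.lift₂ (y - y₀) (by rw [Preadditive.sub_comp, hy, sub_self])
      exact ⟨x, by change y₀ + x ≫ f = y; rw [hx]; abel⟩
    exact Set.finite_univ_iff.1 h3
  · intro y
    obtain ⟨N, hN⟩ := hZ.2 (y ≫ g)
    obtain ⟨x, hx⟩ := D.lift₂ (((p : ℤ) ^ N) • y) (by rw [Preadditive.zsmul_comp, hN])
    obtain ⟨M, hM⟩ := hX.2 x
    refine ⟨M + N, ?_⟩
    rw [pow_add, mul_smul, ← hx, ← Preadditive.zsmul_comp, hM, zero_comp]

/-- ROW VF -/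
theorem ft_of_cofibre {A Q : T} {m d : ℤ} (hd : 0 < d) (hA : Conn m A) {v : A⟦d⟧ ⟶ A}
    {g : A ⟶ Q} {h : Q ⟶ (A⟦d⟧)⟦(1 : ℤ)⟧} (D : Dist v g h) (hQ : FT p Q) : FT p A := by
  have key : ∀ n : ℕ, ∀ k : ℤ, k < m + n → FTk p k A := by
    intro n
    induction n with
    | zero =>
      intro k hk
      have hk' : k < m := by simpa using hk
      have h0 : ∀ f : (𝟙_ T)⟦k⟧ ⟶ A, f = 0 := fun f => hA k hk' f
      exact ⟨Finite.of_injective (fun _ => ()) fun x y _ => (h0 x).trans (h0 y).symm,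
        fun f => ⟨0, by rw [h0 f, smul_zero]⟩⟩
    | succ n ih =>
      intro k hk
      push_cast at hk
      exact FTk.ext D ((ih (k - d) (by omega)).shift (by ring)) (hQ k)
  intro k
  exact key (k - m + 1).toNat k (by
    have := Int.self_le_toNat (k - m + 1)
    omega)

end Vale.Agent.P221
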