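import Vale.Agent.P221.H72.Statement
import Vale.Agent.P221.H72.FTlem

/-!
# P221: `p`-complete spectra are `p`-local
-/

open CategoryTheory MonoidalCategory Limits Pretriangulated

namespace Vale.Agent.P221

open Vale.Agent.P251.St Vale.Agent.P251.St.SHCat Vale.Agent.P257.St

open Vale.Agent.P251.H (exists_cone)

theorem isIso_p_of_sq {T : SHCat} {p : ℕ} (hp : p.Prime) {m : ℤ} (hm : ¬ (p : ℤ) ∣ m) {W : T.C}
    (h : (m * m) • (𝟙 W : W ⟶ W) = 0) : IsIso (zmul (p : ℤ) (ident W)) := by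
  have hc : IsCoprime (p : ℤ) (m * m) := by
    have h1 : IsCoprime (p : ℤ) m :=
      (Prime.coprime_iff_not_dvd (Nat.prime_iff_prime_int.1 hp)).2 hm
    exact h1.mul_right h1
  obtain ⟨a, b, hab⟩ := hc
  have h1 : (a * p) • (𝟙 W : W ⟶ W) = 𝟙 W := by
    have h2 : (a * p + b * (m * m)) • (𝟙 W : W ⟶ W) = 𝟙 W := by rw [hab, one_smul]
    rwa [add_smul, mul_smul b, h, smul_zero, add_zero] at h2
  refine ⟨a • 𝟙 W, ?_, ?_⟩
  · change ((p : ℤ) • 𝟙 W) ≫ (a • 𝟙 W) = 𝟙 W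
    rw [Preadditive.comp_zsmul, Category.comp_id, ← mul_smul]
    exact h1
  · change (a • 𝟙 W) ≫ ((p : ℤ) • 𝟙 W) = 𝟙 W
    rw [Preadditive.zsmul_comp, Category.id_comp, ← mul_smul]
    exact h1

theorem pLocal_of_pComplete {T : SHCat} {p : ℕ} (hp : p.Prime) {X : T.C} (hX : PComplete p X) :
    PLocal p X := by
  intro m hm
  obtain ⟨C, g, h, D⟩ := exists_cone (m • 𝟙 X)
  have hg : m • g = 0 := by
    have h1 := D.zero₁₂
    rwa [Preadditive.zsmul_comp, Category.id_comp] at h1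
  have hh : m • h = 0 := by
    have h1 := D.zero₃₁
    rwa [Functor.map_zsmul, CategoryTheory.Functor.map_id, Preadditive.comp_zsmul,
      Category.comp_id] at h1
  obtain ⟨t, ht⟩ := D.desc₃ (m • 𝟙 C) (by rw [Preadditive.comp_zsmul, Category.comp_id, hg])
  have hC : (m * m) • (𝟙 C : C ⟶ C) = 0 := by
    rw [mul_smul, ← ht, ← Preadditive.zsmul_comp, hh, zero_comp]
  obtain ⟨a, b, D'⟩ := Vale.Agent.P251.M.Dist.invRot' D
  have hA : (m * m) • (𝟙 (C⟦(-1 : ℤ)⟧) : C⟦(-1 : ℤ)⟧ ⟶ C⟦(-1 : ℤ)⟧) = 0 := by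
    have h1 := congrArg (fun f => f⟦(-1 : ℤ)⟧') hC
    simp only [Functor.map_zsmul, CategoryTheory.Functor.map_id, Functor.map_zero] at h1
    exact h1
  have ha : a = 0 := hX _ (isIso_p_of_sq hp hm hA) a
  obtain ⟨r, hr⟩ := D'.desc₂ (𝟙 X) (by rw [ha, zero_comp])
  refine ⟨r, hr, ?_⟩
  change r ≫ (m • 𝟙 X) = 𝟙 X
  rw [Preadditive.comp_zsmul, Category.comp_id, ← hr, Preadditive.zsmul_comp, Category.id_comp]

end Vale.Agent.P221
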