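import Vale.Agent.P221.H72.Defs

/-!
# P221, row T: homotopy groups of a telescope
-/

open CategoryTheory MonoidalCategory Limits Pretriangulated
open Vale.Agent.P251.T Vale.Agent.P251.S Vale.Agent.P251.H Vale.Agent.P251.M
  Vale.Agent.P251.I

universe v u

set_option linter.unusedSectionVars false

namespace Vale.Agent.P221

variable {T : Type u} [Category.{v} T] [Preadditive T] [HasZeroObject T]
    [HasShift T ℤ] [∀ n : ℤ, (shiftFunctor T n).Additive] [Pretriangulated T] [IsTriangulated T]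
    [MonoidalCategory T] [SymmetricCategory T] [TensorTriangulated T] [MonoidalClosed T]
    [HasCoproducts.{0} T] [HasProducts.{0} T] [StableCat T]

/-- surjectivity on homotopy groups -/
theorem tele_surj {X Y C : T} {f : X ⟶ Y} {g : Y ⟶ C} {h : C ⟶ X⟦(1 : ℤ)⟧}
    (D : Triangle.mk f g h ∈ distTriang T) {m : ℤ} (hC : Above m C) {k : ℤ} (hk : m ≤ k)
    (x : (𝟙_ T)⟦k⟧ ⟶ Y) : ∃ y : (𝟙_ T)⟦k⟧ ⟶ X, y ≫ f = x := by
  obtain ⟨y, hy⟩ := Triangle.coyoneda_exact₂ _ D x (hC k hk (x ≫ g))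
  exact ⟨y, hy.symm⟩

/-- injectivity on homotopy groups -/
theorem tele_inj {X Y C : T} {f : X ⟶ Y} {g : Y ⟶ C} {h : C ⟶ X⟦(1 : ℤ)⟧}
    (D : Triangle.mk f g h ∈ distTriang T) {m : ℤ} (hC : Above m C) {k : ℤ} (hk : m ≤ k + 1)
    (y : (𝟙_ T)⟦k⟧ ⟶ X) (hy : y ≫ f = 0) : y = 0 := by
  have h1 : y⟦(1 : ℤ)⟧' ≫ f⟦(1 : ℤ)⟧' = 0 := by
    rw [← Functor.map_comp, hy, Functor.map_zero]
  obtain ⟨z, hz⟩ := Triangle.coyoneda_exact₁ _ D (y⟦(1 : ℤ)⟧') h1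
  change ((𝟙_ T)⟦k⟧)⟦(1 : ℤ)⟧ ⟶ C at z
  let e : (𝟙_ T)⟦k + 1⟧ ≅ ((𝟙_ T)⟦k⟧)⟦(1 : ℤ)⟧ := (shiftFunctorAdd T k 1).app (𝟙_ T)
  have h2 : e.hom ≫ z = 0 := hC (k + 1) hk _
  have h3 : z = 0 := by rw [← cancel_epi e.hom, h2, comp_zero]
  apply (shiftFunctor T (1 : ℤ)).map_injective
  have h4 : z ≫ (Triangle.mk f g h).mor₃ = 0 := by
    rw [h3]
    exact zero_comp
  exact (hz.trans h4).trans (Functor.map_zero _ _ _).symm

section

variable {X C : ℕ → T} {f : ∀ n, X n ⟶ X (n + 1)} {g : ∀ n, X (n + 1) ⟶ C n}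
  {h : ∀ n, C n ⟶ (X n)⟦(1 : ℤ)⟧}

theorem tele_surj_trT (D : ∀ n, Triangle.mk (f n) (g n) (h n) ∈ distTriang T) {c d : ℤ}
    (hd : 0 < d) (hC : ∀ n : ℕ, Above (c - n * d) (C n)) {m : ℕ} {k : ℤ} (hk : c - m * d ≤ k)
    (j : ℕ) (x : (𝟙_ T)⟦k⟧ ⟶ X (m + j)) : ∃ y : (𝟙_ T)⟦k⟧ ⟶ X m, y ≫ trT f m j = x := by
  induction j with
  | zero => exact ⟨x, by rw [trT_zero]; exact Category.comp_id x⟩
  | succ j ih =>
    have hk' : c - ((m + j : ℕ) : ℤ) * d ≤ k := by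
      have : (m : ℤ) * d ≤ ((m + j : ℕ) : ℤ) * d := by
        apply mul_le_mul_of_nonneg_right _ hd.le
        push_cast
        omega
      linarith
    obtain ⟨y, hy⟩ := tele_surj (D (m + j)) (hC (m + j)) hk' x
    obtain ⟨z, hz⟩ := ih y
    refine ⟨z, ?_⟩
    rw [trT_succ, ← Category.assoc, hz]
    exact hy

theorem tele_inj_trT (D : ∀ n, Triangle.mk (f n) (g n) (h n) ∈ distTriang T) {c d : ℤ}
    (hd : 0 < d) (hC : ∀ n : ℕ, Above (c - n * d) (C n)) {m : ℕ} {k : ℤ}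
    (hk : c - m * d ≤ k + 1) (j : ℕ) (y : (𝟙_ T)⟦k⟧ ⟶ X m) (hy : y ≫ trT f m j = 0) :
    y = 0 := by
  induction j with
  | zero =>
    rw [trT_zero] at hy
    rw [← hy]
    exact (Category.comp_id y).symm
  | succ j ih =>
    have hk' : c - ((m + j : ℕ) : ℤ) * d ≤ k + 1 := by
      have : (m : ℤ) * d ≤ ((m + j : ℕ) : ℤ) * d := by
        apply mul_le_mul_of_nonneg_right _ hd.le
        push_cast
        omega
      linarith
    refine ih (tele_inj (D (m + j)) (hC (m + j)) hk' _ ?_)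
    rw [trT_succ, ← Category.assoc] at hy
    exact hy

theorem tele_surj_ι (D : ∀ n, Triangle.mk (f n) (g n) (h n) ∈ distTriang T) {Z : T}
    {ι : ∀ n, X n ⟶ Z} (hZ : IsTel f ι) {c d : ℤ} (hd : 0 < d)
    (hC : ∀ n : ℕ, Above (c - n * d) (C n)) {m : ℕ} {k : ℤ} (hk : c - m * d ≤ k)
    (x : (𝟙_ T)⟦k⟧ ⟶ Z) : ∃ y : (𝟙_ T)⟦k⟧ ⟶ X m, y ≫ ι m = x := by
  obtain ⟨n, a, ha⟩ := hZ.tel.exists_factor (Vale.Agent.P251.X.cpt_sphere k) x
  change a ≫ ι n = x at ha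
  rcases le_total n m with hnm | hmn
  · refine ⟨a ≫ trTo f hnm, ?_⟩
    have := hZ.tel.trTo_ι hnm
    change trTo f hnm ≫ ι m = ι n at this
    rw [Category.assoc, this, ha]
  · obtain ⟨j, rfl⟩ := Nat.exists_eq_add_of_le hmn
    obtain ⟨b, hb⟩ := tele_surj_trT D hd hC hk j a
    refine ⟨b, ?_⟩
    have := hZ.tel.trT_ι m j
    change trT f m j ≫ ι (m + j) = ι m at this
    rw [← ha, ← hb, Category.assoc, this]

theorem tele_inj_ι (D : ∀ n, Triangle.mk (f n) (g n) (h n) ∈ distTriang T) {Z : T}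
    {ι : ∀ n, X n ⟶ Z} (hZ : IsTel f ι) {c d : ℤ} (hd : 0 < d)
    (hC : ∀ n : ℕ, Above (c - n * d) (C n)) {m : ℕ} {k : ℤ} (hk : c - m * d ≤ k + 1)
    (y : (𝟙_ T)⟦k⟧ ⟶ X m) (hy : y ≫ ι m = 0) : y = 0 := by
  obtain ⟨j, hj⟩ := hZ.tel.exists_eq_zero (Vale.Agent.P251.X.cpt_sphere k) y hy
  exact tele_inj_trT D hd hC hk j y hj

/-- ROW T: homotopy groups of a telescope. -/
theorem tel_evIso {p : ℕ} (D : ∀ n, Triangle.mk (f n) (g n) (h n) ∈ distTriang T)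
    {Z : T} {ι : ∀ n, X n ⟶ Z} (hZ : IsTel f ι) {c d : ℤ} (hd : 0 < d)
    (hC : ∀ n : ℕ, Above (c - n * d) (C n)) (hX : ∀ n, FT p (X n)) :
    EvIso (c + 1) (ι 0) ∧ FT p Z := by
  constructor
  · intro k hk
    have h0 : c - ((0 : ℕ) : ℤ) * d ≤ k := by simp; omega
    refine ⟨fun x y hxy => ?_, fun x => tele_surj_ι D hZ hd hC h0 x⟩
    have hxy' : x ≫ ι 0 = y ≫ ι 0 := hxy
    rw [← sub_eq_zero]
    exact tele_inj_ι D hZ hd hC (by linarith) (x - y) (by rw [Preadditive.sub_comp, hxy', sub_self])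
  · intro k
    let m : ℕ := (c - k).toNat
    have hm : c - (m : ℤ) * d ≤ k := by
      have h1 : c - k ≤ (m : ℤ) := Int.self_le_toNat _
      have h2 : (m : ℤ) ≤ (m : ℤ) * d := by
        have : (m : ℤ) * 1 ≤ (m : ℤ) * d := mul_le_mul_of_nonneg_left (by omega) (by positivity)
        linarith
      linarith
    obtain ⟨hf, hp⟩ := hX m k
    refine ⟨Finite.of_surjective (fun y : (𝟙_ T)⟦k⟧ ⟶ X m => y ≫ ι m)
      (fun x => tele_surj_ι D hZ hd hC hm x), fun x => ?_⟩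
    obtain ⟨y, rfl⟩ := tele_surj_ι D hZ hd hC hm x
    obtain ⟨N, hN⟩ := hp y
    refine ⟨N, ?_⟩
    rw [← Preadditive.zsmul_comp, hN, zero_comp]

end

end Vale.Agent.P221
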