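import Vale.Agent.P221.H72.Statement
import Vale.Agent.P221.H72.FTlem
import Vale.Agent.P221.H72.Tele
import Mathlib.CategoryTheory.Triangulated.TriangleShift

/-!
# P221: the telescope of a self map tensored with an object
-/

open CategoryTheory MonoidalCategory Limits Pretriangulated
open Vale.Agent.P251.T Vale.Agent.P251.S Vale.Agent.P251.H Vale.Agent.P251.M
  Vale.Agent.P251.I Vale.Agent.P251.X

universe v u

set_option linter.unusedSectionVars false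

namespace Vale.Agent.P221

section

variable {T : Type u} [Category.{v} T] [Preadditive T] [HasZeroObject T]
    [HasShift T ℤ] [∀ n : ℤ, (shiftFunctor T n).Additive] [Pretriangulated T]

/-- the cofibre of `v⟦k⟧`, up to isomorphism of the source -/
theorem nonempty_cone_shift {F V A C : T} {d : ℤ} {v : F⟦d⟧ ⟶ F} {g : F ⟶ V}
    {h : V ⟶ (F⟦d⟧)⟦(1 : ℤ)⟧} (D : Dist v g h) (k : ℤ) (e : A ≅ (F⟦d⟧)⟦k⟧)
    {g' : F⟦k⟧ ⟶ C} {h' : C ⟶ A⟦(1 : ℤ)⟧} (D' : Dist (e.hom ≫ v⟦k⟧') g' h') :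
    Nonempty (C ≅ V⟦k⟧) := by
  have h1 := Triangle.shift_distinguished _ D k
  let u : ℤˣ := k.negOnePow
  have hu : u * u = 1 := Int.units_mul_self u
  let s : F⟦k⟧ ≅ F⟦k⟧ :=
    { hom := u • 𝟙 _
      inv := u • 𝟙 _
      hom_inv_id := by
        rw [Linear.units_smul_comp, Category.id_comp, smul_smul, hu, one_smul]
      inv_hom_id := by
        rw [Linear.units_smul_comp, Category.id_comp, smul_smul, hu, one_smul] }
  have comm : (Triangle.mk (e.hom ≫ v⟦k⟧') g' h').mor₁ ≫ s.hom =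
      e.hom ≫ ((Triangle.shiftFunctor T k).obj (Triangle.mk v g h)).mor₁ := by
    change (e.hom ≫ v⟦k⟧') ≫ (u • 𝟙 _) = e.hom ≫ (u • v⟦k⟧')
    rw [Linear.comp_units_smul, Category.comp_id, Linear.comp_units_smul]
  exact ⟨Triangle.π₃.mapIso (isoTriangleOfIso₁₂ _ _ D' h1 e s comm)⟩

end

section

variable {T : Type u} [Category.{v} T] [Preadditive T] [HasZeroObject T]
    [HasShift T ℤ] [∀ n : ℤ, (shiftFunctor T n).Additive] [Pretriangulated T] [IsTriangulated T]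
    [MonoidalCategory T] [SymmetricCategory T] [TensorTriangulated T] [MonoidalClosed T]
    [HasCoproducts.{0} T] [HasProducts.{0} T] [StableCat T]

theorem above_of_iso' {n : ℤ} {X Y : T} (e : X ≅ Y) (hX : Above n X) : Above n Y := by
  intro k hk f
  rw [← cancel_mono e.inv, zero_comp]
  exact hX k hk _

theorem evIso_iso_comp {n : ℤ} {X Y Z : T} (e : X ≅ Y) {f : Y ⟶ Z} (hf : EvIso n f) :
    EvIso n (e.hom ≫ f) := by
  intro k hk
  have h1 : (fun x : (𝟙_ T)⟦k⟧ ⟶ X => x ≫ e.hom ≫ f) =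
      (fun x : (𝟙_ T)⟦k⟧ ⟶ Y => x ≫ f) ∘ (fun x : (𝟙_ T)⟦k⟧ ⟶ X => x ≫ e.hom) := by
    funext x
    exact (Category.assoc _ _ _).symm
  rw [h1]
  refine (hf k hk).comp ⟨fun x y hxy => (cancel_mono e.hom).1 hxy, fun y => ⟨y ≫ e.inv, ?_⟩⟩
  change (y ≫ e.inv) ≫ e.hom = y
  rw [Category.assoc, Iso.inv_hom_id, Category.comp_id]

/-- `Y⟦k⟧ ⊗ X ≅ (Y ⊗ X)⟦k⟧` -/
noncomputable def shiftTensorIso (Y X : T) (k : ℤ) : (Y⟦k⟧) ⊗ X ≅ (Y ⊗ X)⟦k⟧ :=
  ((tensorRight X).commShiftIso k).app Y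

end

open Vale.Agent.P251.St Vale.Agent.P251.St.SHCat Vale.Agent.P257.St

theorem tel_tensor {T : SHCat} {p : ℕ} {F V W X : T.C} {d : ℤ} (hd : 0 < d) {v : Hom (F⟦d⟧) F}
    {g : Hom F V} {h : Hom V (sus (F⟦d⟧))}
    (D : SHCat.Dist v g h) (hW : IsTelescope v W) (hFX : FT p (F ⊗ X)) {c : ℤ}
    (hV : Above c (V ⊗ X)) :
    ∃ ι : F ⊗ X ⟶ W ⊗ X, EvIso (c + 1) ι ∧ FT p (W ⊗ X) := by
  obtain ⟨ι, hι⟩ := hW
  choose C g' h' hC using fun n : ℕ => exists_cone (telStep v n)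
  have hiso : ∀ n : ℕ, Nonempty (C n ≅ V⟦-(((n + 1 : ℕ) : ℤ) * d)⟧) := fun n =>
    nonempty_cone_shift D (-(((n + 1 : ℕ) : ℤ) * d))
      ((shiftFunctorAdd' T.C d (-(((n + 1 : ℕ) : ℤ) * d)) (-((n : ℤ) * d))
        (by push_cast; ring)).app F) (hC n)
  have hA : ∀ n : ℕ, Above (c - n * d) (C n ⊗ X) := by
    intro n
    obtain ⟨e⟩ := hiso n
    have h1 : Above (c + -(((n + 1 : ℕ) : ℤ) * d)) ((V ⊗ X)⟦-(((n + 1 : ℕ) : ℤ) * d)⟧) :=
      hV.shift _ _ rfl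
    have h2 := above_of_iso' ((whiskerRightIso e X) ≪≫ shiftTensorIso V X _).symm h1
    exact h2.mono (by push_cast; nlinarith)
  have hF : ∀ n : ℕ, FT p ((F⟦-((n : ℤ) * d)⟧) ⊗ X) := fun n =>
    (hFX.shift _).of_iso (shiftTensorIso F X _).symm
  have key := tel_evIso (p := p) (X := fun n : ℕ => (F⟦-((n : ℤ) * d)⟧) ⊗ X)
    (f := fun n => telStep v n ▷ X) (fun n => dist_whiskerRight X (hC n)) (hι.whiskerRight X) hd
    hA hF
  let e0 : F ≅ F⟦-(((0 : ℕ) : ℤ) * d)⟧ :=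
    ((shiftFunctorZero' T.C (-(((0 : ℕ) : ℤ) * d)) (by simp)).app F).symm
  exact ⟨(whiskerRightIso e0 X).hom ≫ (ι 0 ▷ X), evIso_iso_comp _ key.1, key.2⟩

end Vale.Agent.P221
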