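import Vale.Agent.P221.H72.Statement
import Vale.Agent.P221.H72.FTlem

/-!
# P221: `p`-local spectra with finite homotopy groups
-/

open CategoryTheory MonoidalCategory Limits Pretriangulated

namespace Vale.Agent.P221

open Vale.Agent.P251.St Vale.Agent.P251.St.SHCat Vale.Agent.P257.St

theorem ft_of_pLocal {T : SHCat} {p : ℕ} (hp : p.Prime) {Q : T.C} (hQ : PLocal p Q)
    (h : ∀ k : ℤ, Finite ((𝟙_ T.C)⟦k⟧ ⟶ Q)) : FT p Q := by
  intro k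
  refine ⟨h k, fun f => ?_⟩
  have := h k
  obtain ⟨a, m, hm, hn⟩ := Nat.exists_eq_pow_mul_and_not_dvd
    (Nat.card_pos (α := ((𝟙_ T.C)⟦k⟧ ⟶ Q))).ne' p hp.ne_one
  refine ⟨a, ?_⟩
  have h1 : (Nat.card ((𝟙_ T.C)⟦k⟧ ⟶ Q)) • f = 0 := card_nsmul_eq_zero'
  have h2 : (m : ℤ) • (((p : ℤ) ^ a) • f) = 0 := by
    rw [← mul_smul, mul_comm, ← Nat.cast_pow, ← Nat.cast_mul, ← hn, natCast_zsmul]
    exact h1
  have h3 : IsIso (zmul (m : ℤ) (ident Q)) := hQ m (by exact_mod_cast hm)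
  have h4 : (((p : ℤ) ^ a) • f) ≫ (zmul (m : ℤ) (ident Q)) = 0 := by
    change (((p : ℤ) ^ a) • f) ≫ ((m : ℤ) • 𝟙 Q) = 0
    rw [Preadditive.comp_zsmul, Category.comp_id, h2]
  rw [← cancel_mono (zmul (m : ℤ) (ident Q)), h4, zero_comp]

end Vale.Agent.P221
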