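import Vale.Agent.P221.H72.Good
import Vale.Agent.P221.H72.Fin
import Vale.Agent.P221.H72.EmB
import Vale.Agent.P221.H72.TelS
import Vale.Agent.P221.H72.Low
import Vale.Agent.P221.H72.PComp
import Vale.Agent.P221.H72.Tors
import Vale.Agent.P251.St.ToFunctor

/-!
# P221: assembly
-/

open CategoryTheory MonoidalCategory Limits Pretriangulated

namespace Vale.Agent.P221

open Vale.Agent.P251.St Vale.Agent.P251.St.SHCat Vale.Agent.P257.St
open Vale.Agent.P251.T Vale.Agent.P251.S Vale.Agent.P251.H Vale.Agent.P251.M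
  Vale.Agent.P251.I Vale.Agent.P251.X

variable {T : SHCat}

theorem Tower.exists_hfp {p m : ℕ} {B : T.C} (h : Tower p m B) :
    ∃ H : T.C, IsHFp p H ∧ Thick (fun X => X = B) H := by
  induction h with
  | @base H hH => exact ⟨H, hH, .base rfl⟩
  | @step m B B' f g h D _ ih =>
    obtain ⟨H, hH, hT⟩ := ih
    refine ⟨H, hH, hT.mono ?_⟩
    rintro X rfl
    exact .cof D (.shift _ (.base rfl)) (.base rfl)

theorem Tower.hasEM (S : Susp T) {p m : ℕ} (hp : p.Prime) {B : T.C} (h : Tower p m B) :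
    HasEM T.C p (Thick (fun X : T.C => X = B)) := by
  obtain ⟨H, ⟨h0, e, he, hpe, hgen⟩, hT⟩ := h.exists_hfp
  intro D a b hD ha hb
  refine .base ((em S.toSpaceFunctor hp e h0 he hpe hgen hD ha hb).mono ?_)
  rintro X rfl
  exact hT

theorem thick_thick {C : Type*} [Category C] [Preadditive C] [HasZeroObject C]
    [HasShift C ℤ] [∀ n : ℤ, (shiftFunctor C n).Additive] [Pretriangulated C]
    {P : C → Prop} {X : C} (h : Thick (Thick P) X) : Thick P X :=
  h.mono fun _ h => h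

theorem conn_of_thick {P : T.C → Prop} (hP : ∀ X, P X → ∃ m : ℤ, Conn m X) {X : T.C}
    (h : Thick P X) : ∃ m : ℤ, Conn m X := by
  induction h with
  | base h => exact hP _ h
  | zero h => exact ⟨0, Conn.zero h⟩
  | shift k _ ih =>
    obtain ⟨m, hm⟩ := ih
    exact ⟨_, hm.shift k _ rfl⟩
  | cof D _ _ ih₁ ih₂ =>
    obtain ⟨m, hm⟩ := ih₁
    obtain ⟨m', hm'⟩ := ih₂
    exact ⟨min m m', Conn.ext₃ _ D (hm'.mono (min_le_right _ _))
      (hm.mono (by have := min_le_left m m'; omega))⟩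
  | retract i r h _ ih =>
    obtain ⟨m, hm⟩ := ih
    exact ⟨m, hm.of_retract i r h⟩

/-- `F ⊗ X`, for an fp-spectrum `X` and a finite `F` with a self map of positive degree whose
cofibre `V` has type `n + 1` -/
theorem fp_tensor {p : ℕ} (hp : p.Prime) {F V : T.C}
    {d : ℤ} (hd : 0 < d) {v : Hom (F⟦d⟧) F} {g : Hom F V} {h : Hom V (sus (F⟦d⟧))}
    (D : SHCat.Dist v g h) (hF : FinPLocal p F) {X : T.C} (hX : IsFpAt p V X) :
    (∃ m : ℤ, Conn m (F ⊗ X)) ∧ FT p (F ⊗ X) ∧ ∃ c : ℤ, Above c (V ⊗ X) := by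
  have hXl : PLocal p X := pLocal_of_pComplete hp hX.complete
  obtain ⟨m, hm⟩ : ∃ m : ℤ, Conn m (F ⊗ X) :=
    conn_of_thick (P := fun Y => Y = X) (by rintro _ rfl; exact hX.below)
      (thick_fin_tensor hF hXl)
  obtain ⟨hfin, a, b, hab⟩ := hX.finTotal
  have hc : Above (b + 1) (V ⊗ X) := fun k hk f => hab k (Or.inr (by omega)) f
  have hVl : PLocal p (V ⊗ X) := by
    intro r hr
    have h1 : IsIso (r • 𝟙 X) := hXl r hr
    have h2 : V ◁ (r • 𝟙 X) = r • 𝟙 (V ⊗ X) := by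
      have h := (tensorLeft V).map_zsmul (f := 𝟙 X) (r := r)
      exact h.trans (congrArg _ (whiskerLeft_id V X))
    change IsIso (r • 𝟙 (V ⊗ X))
    rw [← h2]
    infer_instance
  have hVF : FT p (V ⊗ X) := ft_of_pLocal hp hVl hfin
  refine ⟨⟨m, hm⟩, ?_, ⟨_, hc⟩⟩
  obtain ⟨Q, g', h', D'⟩ := exists_cone ((shiftTensorIso F X d).inv ≫ v ▷ X)
  obtain ⟨e⟩ : Nonempty (Q ≅ V ⊗ X) := by
    have D'' := dist_whiskerRight X D
    exact ⟨Triangle.π₃.mapIso (isoTriangleOfIso₁₂ _ _ D' D'' (shiftTensorIso F X d).symm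
      (Iso.refl _) (by
        change ((shiftTensorIso F X d).inv ≫ v ▷ X) ≫ 𝟙 _ = (shiftTensorIso F X d).inv ≫ v ▷ X
        rw [Category.comp_id]))⟩
  exact ft_of_cofibre hd hm D' (hVF.of_iso e.symm)

/-- the homotopy groups of an object with the connectivity of a cover are finite -/
theorem ft_of_bij {p : ℕ} {A Z : T.C} (hZ : FT p Z) {m : ℤ} (a : A ⟶ Z) (h1 : Conn m A)
    (h2 : EvIso m a) : FT p A := by
  intro k
  rcases lt_or_ge k m with h | h
  · exact ⟨Finite.of_injective (fun _ => ()) fun x y _ => by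
      rw [h1 k h x, h1 k h y], fun x => ⟨0, by rw [h1 k h x, smul_zero]⟩⟩
  · have hb := h2 k h
    constructor
    · have := (hZ k).1
      exact Finite.of_injective _ hb.1
    · intro x
      obtain ⟨N, hN⟩ := (hZ k).2 (x ≫ a)
      refine ⟨N, hb.1 ?_⟩
      change (((p : ℤ) ^ N) • x) ≫ a = 0 ≫ a
      rw [Preadditive.zsmul_comp, hN, zero_comp]

section

variable {p : ℕ} (S : Susp T) (hp : p.Prime) {F V W : T.C}
    {d : ℤ} (hd : 0 < d) {v : Hom (F⟦d⟧) F} {g : Hom F V} {h : Hom V (sus (F⟦d⟧))}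
    (D : SHCat.Dist v g h) (hF : FinPLocal p F)
    (hW : IsTelescope v W) {m : ℕ} {B : T.C} (hB : Tower p m B)

include S hp hd D hF hW hB

theorem good_iff {X : T.C} (hX : IsFpAt p V X) :
    Thick (fun Z => Z = B) (F ⊗ X) ↔ Good p (Thick (fun Z : T.C => Z = B)) (W ⊗ X) := by
  obtain ⟨hm, hFX, c, hc⟩ := fp_tensor hp hd D hF hX
  obtain ⟨ι, hι, hWX⟩ := tel_tensor hd D hW hFX hc
  have hcov : IsCov p ι := ⟨hm, hFX, ⟨_, hι⟩⟩
  constructor
  · intro hT
    exact Good.of_cov S.toSpaceFunctor (hB.hasEM S hp) hWX hcov (.base hT)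
  · intro hG
    exact thick_thick (hG.2 _ ι hcov)

theorem main_one {X : T.C} (hX : IsFpAt p V X) (Y : T.C → Prop)
    (hY : ∀ U, Y U → IsFpAt p V U ∧ Thick (fun Z => Z = B) (F ⊗ U))
    (hT : Thick (fun Z => ∃ U, Y U ∧ Z = W ⊗ U) (W ⊗ X)) : Thick (fun Z => Z = B) (F ⊗ X) := by
  refine (good_iff S hp hd D hF hW hB hX).2 (good_of_thick S.toSpaceFunctor
    (hB.hasEM S hp) ?_ hT)
  rintro _ ⟨U, hU, rfl⟩
  exact (good_iff S hp hd D hF hW hB (hY U hU).1).1 (hY U hU).2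

theorem main_two {X : T.C} (hX : IsFpAt p V X) (hBf : IsFpAt p V B)
    (hT : Thick (fun Z => Z = W ⊗ B) (W ⊗ X)) : Thick (fun Z => Z = B) (F ⊗ X) := by
  refine main_one S hp hd D hF hW hB hX (fun U => U = B) ?_ (hT.mono ?_)
  · rintro _ rfl
    exact ⟨hBf, thick_fin_tensor hF (pLocal_of_pComplete hp hBf.complete)⟩
  · rintro _ rfl
    exact .base ⟨B, rfl, rfl⟩

theorem main_three {X : T.C} (hX : IsFpAt p V X) {l : ℤ} {A : T.C} (a : A ⟶ W ⊗ X)
    (h1 : Conn l A) (h2 : EvIso l a) :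
    Thick (fun Z => Z = B) (F ⊗ X) ↔ Thick (fun Z => Z = B) A := by
  obtain ⟨hm, hFX, c, hc⟩ := fp_tensor hp hd D hF hX
  obtain ⟨ι, hι, hWX⟩ := tel_tensor hd D hW hFX hc
  have h := thick_iff S.toSpaceFunctor (hB.hasEM S hp) hWX ⟨hm, hFX, ⟨_, hι⟩⟩
    ⟨⟨l, h1⟩, ft_of_bij hWX a h1 h2, ⟨l, h2⟩⟩
  exact ⟨fun hT => thick_thick (h.1 (.base hT)), fun hT => thick_thick (h.2 (.base hT))⟩

end

end Vale.Agent.P221
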