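import Vale.Agent.P221.H72.Defs2

/-!
# P221: spectra of an abstract class with a connective cover in a thick subcategory
-/

open CategoryTheory MonoidalCategory Limits Pretriangulated
open Vale.Agent.P251.T Vale.Agent.P251.S Vale.Agent.P251.H Vale.Agent.P251.M
  Vale.Agent.P251.I Vale.Agent.P251.X

universe v u

set_option linter.unusedSectionVars false

namespace Vale.Agent.P221

variable {T : Type u} [Category.{v} T] [Preadditive T] [HasZeroObject T]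
    [HasShift T ℤ] [∀ n : ℤ, (shiftFunctor T n).Additive] [Pretriangulated T] [IsTriangulated T]
    [MonoidalCategory T] [SymmetricCategory T] [TensorTriangulated T] [MonoidalClosed T]
    [HasCoproducts.{0} T] [HasProducts.{0} T] [StableCat T]

/-- bounded spectra of the class `Φ` are in `Thick P` -/
def HasEMG (Φ P : T → Prop) : Prop :=
  ∀ (D : T) (a b : ℤ), Φ D → Conn a D → Above b D → Thick P D

/-- `A` is a connective cover of `Z`, up to bounded objects -/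
structure IsCovG (Φ : T → Prop) {A Z : T} (a : A ⟶ Z) : Prop where
  conn : ∃ m : ℤ, Conn m A
  ft : Φ A
  ev : ∃ n : ℤ, EvIso n a

section

variable [LocallySmall.{0} T] (F : SpaceFunctor T) {Φ P : T → Prop} (hΦ : Cls Φ)
  (hP : HasEMG Φ P)

include F hΦ hP

theorem thick_iff_auxG {Z : T} {A : T} {a : A ⟶ Z} {m n : ℤ} (hA : Conn m A) (hFA : Φ A)
    (hev : EvIso n a) {k : ℤ} (hk : k ≤ m) {C Z' : T} {c : C ⟶ Z} {f : Z ⟶ Z'}
    {w : Z' ⟶ C⟦(1 : ℤ)⟧} (D : Dist c f w) (hC : BigCell T k C) (hZ' : Above k Z')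
    (hFC : Φ C) : Thick P A ↔ Thick P C := by
  obtain ⟨a', rfl⟩ := D.lift₂ a
    (hom_eq_zero (bigCell_of_conn F (hA.mono hk)) hZ' _)
  obtain ⟨Q, g, h, D'⟩ := exists_cone a'
  have h1 : EvIso (max n k) a' := EvIso.of_comp (hev.mono (le_max_left _ _))
    ((evIso_of_above D hZ').mono (le_max_right _ _))
  have hQ : Thick P Q := by
    refine hP Q k (max n k + 1) (hΦ.cof D' hFA hFC) ?_ (above_of_evIso D' h1)
    exact Conn.ext₃ _ D' (conn_of_bigCell F hC) (hA.mono (by omega))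
  exact ⟨fun hT => Thick.cof₂ D' hT hQ, fun hT => Thick.cof₁ D' hT hQ⟩

theorem thick_iffG {Z A B : T} (hZ : Φ Z) {a : A ⟶ Z} {b : B ⟶ Z} (ha : IsCovG Φ a)
    (hb : IsCovG Φ b) : Thick P A ↔ Thick P B := by
  obtain ⟨⟨m, hm⟩, hFA, ⟨n, hn⟩⟩ := ha
  obtain ⟨⟨m', hm'⟩, hFB, ⟨n', hn'⟩⟩ := hb
  obtain ⟨C, Z', c, f, w, D, hC, hZ'⟩ := exists_cover (min m m') Z
  have hFC := hΦ.cover D hC hZ' hZ
  exact (thick_iff_auxG F hΦ hP hm hFA hn (min_le_left _ _) D hC hZ' hFC).trans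
    (thick_iff_auxG F hΦ hP hm' hFB hn' (min_le_right _ _) D hC hZ' hFC).symm

omit hP in
theorem exists_isCovG {Z : T} (hZ : Φ Z) (k : ℤ) : ∃ (C Z' : T) (c : C ⟶ Z) (f : Z ⟶ Z')
    (w : Z' ⟶ C⟦(1 : ℤ)⟧), Dist c f w ∧ BigCell T k C ∧ Above k Z' ∧ IsCovG Φ c := by
  obtain ⟨C, Z', c, f, w, D, hC, hZ'⟩ := exists_cover k Z
  exact ⟨C, Z', c, f, w, D, hC, hZ', ⟨k, conn_of_bigCell F hC⟩, hΦ.cover D hC hZ' hZ,
    ⟨k, evIso_of_above D hZ'⟩⟩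

end

/-- `Z` is in the class `Φ` and the connective covers of `Z` are in `Thick P` -/
def GoodG (Φ P : T → Prop) (Z : T) : Prop :=
  Φ Z ∧ ∀ (A : T) (a : A ⟶ Z), IsCovG Φ a → Thick P A

section

variable [LocallySmall.{0} T] (F : SpaceFunctor T) {Φ P : T → Prop} (hΦ : Cls Φ)
  (hP : HasEMG Φ P)

include F hΦ hP

theorem GoodG.of_cov {Z A : T} (hZ : Φ Z) {a : A ⟶ Z} (ha : IsCovG Φ a) (hA : Thick P A) :
    GoodG Φ P Z :=
  ⟨hZ, fun _ _ hb => (thick_iffG F hΦ hP hZ ha hb).1 hA⟩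

theorem GoodG.zero {Z : T} (hZ : IsZero Z) : GoodG Φ P Z := by
  refine GoodG.of_cov F hΦ hP (hΦ.zero hZ) (a := 𝟙 Z) ⟨⟨0, Conn.zero hZ⟩, hΦ.zero hZ, ⟨0, ?_⟩⟩
    (.zero hZ)
  exact fun k _ => ⟨fun _ _ _ => hZ.eq_of_tgt _ _, fun y => ⟨y, hZ.eq_of_tgt _ _⟩⟩

theorem GoodG.shift {Z : T} (hZ : GoodG Φ P Z) (k : ℤ) : GoodG Φ P (Z⟦k⟧) := by
  obtain ⟨C, Z', c, f, w, D, hC, hZ', ⟨⟨m, hm⟩, h1, ⟨n, hn⟩⟩⟩ := exists_isCovG F hΦ hZ.1 0
  refine GoodG.of_cov F hΦ hP (hΦ.shift k hZ.1) (a := c⟦k⟧')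
    ⟨⟨_, hm.shift k _ rfl⟩, hΦ.shift k h1, ⟨_, hn.shift k _ rfl⟩⟩ ?_
  exact .shift k (hZ.2 C c ⟨⟨m, hm⟩, h1, ⟨n, hn⟩⟩)

theorem GoodG.cof {X Y Z : T} {f : X ⟶ Y} {g : Y ⟶ Z} {h : Z ⟶ X⟦(1 : ℤ)⟧}
    (D : Dist f g h) (hX : GoodG Φ P X) (hY : GoodG Φ P Y) : GoodG Φ P Z := by
  obtain ⟨A, X', a, a', wa, DA, hA, hX', hca⟩ := exists_isCovG F hΦ hX.1 0
  obtain ⟨B, Y', b, b', wb, DB, hB, hY', hcb⟩ := exists_isCovG F hΦ hY.1 0
  obtain ⟨α, hα⟩ := DB.lift₂ (a ≫ f) (hom_eq_zero hA hY' _)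
  obtain ⟨C, γ, δ, DC⟩ := exists_cone α
  obtain ⟨c, h₂, h₃⟩ := DC.map₃ D a b hα
  refine GoodG.of_cov F hΦ hP (hΦ.cof D hX.1 hY.1) (a := c)
    ⟨⟨0, ?_⟩, hΦ.cof DC hca.ft hcb.ft, ⟨1, ?_⟩⟩ ?_
  · exact Conn.ext₃ _ DC (conn_of_bigCell F hB) ((conn_of_bigCell F hA).mono (by omega))
  · exact five DC D hα h₂ h₃ (evIso_of_above DA hX') (evIso_of_above DB hY')
  · exact .cof DC (hX.2 A a hca) (hY.2 B b hcb)

theorem GoodG.retract {X Y : T} (i : X ⟶ Y) (r : Y ⟶ X) (h : i ≫ r = 𝟙 X) (hY : GoodG Φ P Y) :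
    GoodG Φ P X := by
  have hX := hΦ.retract i r h hY.1
  obtain ⟨A, X', a, a', wa, DA, hA, hX', hca⟩ := exists_isCovG F hΦ hX 0
  obtain ⟨B, Y', b, b', wb, DB, hB, hY', hcb⟩ := exists_isCovG F hΦ hY.1 0
  obtain ⟨α, hα⟩ := DB.lift₂ (a ≫ i) (hom_eq_zero hA hY' _)
  obtain ⟨β, hβ⟩ := DA.lift₂ (b ≫ r) (hom_eq_zero hB hX' _)
  refine GoodG.of_cov F hΦ hP hX hca (.retract α β ?_ (hY.2 B b hcb))
  rw [← sub_eq_zero]
  obtain ⟨s, t, D'⟩ := Dist.invRot' DA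
  obtain ⟨u, hu⟩ := D'.lift₂ (α ≫ β - 𝟙 A) (by
    rw [Preadditive.sub_comp, Category.assoc, hβ, ← Category.assoc, hα, Category.assoc, h,
      Category.comp_id, Category.id_comp, sub_self])
  rw [← hu, hom_eq_zero hA ((hX'.shift (-1) (-1) (by norm_num)).mono (by norm_num)) u, zero_comp]

/-- The good spectra form a thick subcategory. -/
theorem good_of_thickG {P' : T → Prop} (h : ∀ X, P' X → GoodG Φ P X) {Z : T} (hZ : Thick P' Z) :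
    GoodG Φ P Z := by
  induction hZ with
  | base hX => exact h _ hX
  | zero hX => exact GoodG.zero F hΦ hP hX
  | shift k _ ih => exact GoodG.shift F hΦ hP ih k
  | cof D _ _ ih₁ ih₂ => exact GoodG.cof F hΦ hP D ih₁ ih₂
  | retract i r hir _ ih => exact GoodG.retract F hΦ hP i r hir ih

end

end Vale.Agent.P221
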