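import Vale.Agent.P221.H72.Statement

/-!
# P221, statement layer: Moore towers, telescopic localization
-/

open CategoryTheory MonoidalCategory Limits Pretriangulated

namespace Vale.Agent.P221

open Vale.Agent.P251.St Vale.Agent.P251.St.SHCat Vale.Agent.P257.St

variable {T : SHCat}

/-- There are cofibre sequences `Σ^{2(p^i-1)} B_i ⟶ B_i ⟶ B_{i-1}`, `1 ≤ i ≤ m`, with `B = B_m`, and
the cofibre of `p : B_0 ⟶ B_0` is `H𝔽_p`. -/
inductive Tower2 (p : ℕ) : ℕ → T.C → Prop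
  | base {B H : T.C} {g : Hom B H} {h : Hom H (sus B)} :
      Dist (zmul (p : ℤ) (ident B)) g h → IsHFp p H → Tower2 p 0 B
  | step {m : ℕ} {B B' : T.C} {f : Hom (B⟦2 * ((p : ℤ) ^ (m + 1) - 1)⟧) B} {g : Hom B B'}
      {h : Hom B' (sus (B⟦2 * ((p : ℤ) ^ (m + 1) - 1)⟧))} :
      Dist f g h → Tower2 p m B' → Tower2 p (m + 1) B

/-- `B` is an fp-spectrum of fp-type at most `n` from which `H𝔽_p` is obtained by killing
successively self maps of degrees `|v_n|, …, |v_1|` and `p`, as every standard form of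
`BP⟨n⟩`. -/
structure IsForm2 (K : ℕ → T.C) (p n : ℕ) (B : T.C) : Prop where
  fp : IsFp K p n B
  tower : Tower2 p n B

/-- `V 1, …, V (n+1)` is a tower of generalized Moore spectra: `V 1` is the cofibre of
`p : S ⟶ S`, and `V (j+1)` is the cofibre of a self map `w j` of `V j` of positive degree, with
telescope `W j`; `V (n+1)` has type `n + 1`; `E` has the Bousfield class of `W 1 ∨ … ∨ W n`, and
`V (n+1)` is `E`-acyclic. (By Hopkins and Smith such towers exist, with `w j` a `v_j` self map of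
the type `j` spectrum `V j`, and then `E` has the Bousfield class of `T(1) ∨ … ∨ T(n)`.) -/
structure IsMooreTower (K : ℕ → T.C) (p n : ℕ) (V W : ℕ → T.C) (d : ℕ → ℤ)
    (w : ∀ j : ℕ, Hom ((V j)⟦d j⟧) (V j)) (E : T.C) : Prop where
  moore : ∃ (i : Hom T.one (V 1)) (q : Hom (V 1) (sus T.one)),
    Dist (zmul (p : ℤ) (ident T.one)) i q
  pos : ∀ j : ℕ, 1 ≤ j → j ≤ n → 0 < d j
  step : ∀ j : ℕ, 1 ≤ j → j ≤ n →
    ∃ (g : Hom (V j) (V (j + 1))) (h : Hom (V (j + 1)) (sus ((V j)⟦d j⟧))), Dist (w j) g h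
  type : IsType K p (n + 1) (V (n + 1))
  tel : ∀ j : ℕ, 1 ≤ j → j ≤ n → IsTelescope (w j) (W j)
  cls : ∀ A : T.C, Acyclic E A ↔ ∀ j : ℕ, 1 ≤ j → j ≤ n → Acyclic (W j) A
  acyclic : Acyclic E (V (n + 1))

/-- `Z` is `E`-local: there are no maps from `E`-acyclic spectra to `Z`. -/
def IsELocal (E Z : T.C) : Prop := ∀ A : T.C, Acyclic E A → ∀ g : Hom A Z, g = 0

end Vale.Agent.P221
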