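import Vale.Agent.P221.H72.Statement
import Vale.Agent.P221.H72.FTlem

/-!
# P221, row R5: one step down a Moore tower

If `V ⊗ C` is bounded above with finite `p`-groups as homotopy groups, where `V` is the cofibre of
`v : Σ^d F ⟶ F`, `0 < d`, and the telescope `W` of `v` satisfies `W ⊗ C = 0`, then `F ⊗ C` is
bounded above with finite `p`-groups as homotopy groups.
-/

open CategoryTheory MonoidalCategory Limits Pretriangulated
open Vale.Agent.P251.T Vale.Agent.P251.S Vale.Agent.P251.H Vale.Agent.P251.M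
  Vale.Agent.P251.I Vale.Agent.P251.X

universe v u

set_option linter.unusedSectionVars false

namespace Vale.Agent.P221.H790

section

variable {T : Type u} [Category.{v} T] [Preadditive T] [HasZeroObject T]
    [HasShift T ℤ] [∀ n : ℤ, (shiftFunctor T n).Additive] [Pretriangulated T] [IsTriangulated T]
    [MonoidalCategory T] [SymmetricCategory T] [TensorTriangulated T] [MonoidalClosed T]
    [HasCoproducts.{0} T] [HasProducts.{0} T] [StableCat T]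

/-! ### Degreewise finiteness -/

/-- `π_k X` is a finite `p`-group -/
def FTk (p : ℕ) (k : ℤ) (X : T) : Prop :=
  Finite ((𝟙_ T)⟦k⟧ ⟶ X) ∧ ∀ f : (𝟙_ T)⟦k⟧ ⟶ X, ∃ N : ℕ, ((p : ℤ) ^ N) • f = 0

theorem FTk.ext {p : ℕ} {k : ℤ} {X Y Z : T} {f : X ⟶ Y} {g : Y ⟶ Z} {h : Z ⟶ X⟦(1 : ℤ)⟧}
    (D : Dist f g h) (hX : FTk p k X) (hZ : FTk p k Z) : FTk p k Y := by
  constructor
  · have h1 := hX.1
    have h2 := hZ.1
    have h3 : (Set.univ : Set ((𝟙_ T)⟦k⟧ ⟶ Y)).Finite := by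
      refine Set.Finite.of_finite_fibers (fun y : (𝟙_ T)⟦k⟧ ⟶ Y => y ≫ g) (Set.toFinite _) ?_
      rintro _ ⟨y₀, -, rfl⟩
      refine (Set.finite_range (fun x : (𝟙_ T)⟦k⟧ ⟶ X => y₀ + x ≫ f)).subset ?_
      rintro y ⟨-, hy⟩
      change y ≫ g = y₀ ≫ g at hy
      obtain ⟨x, hx⟩ := D.lift₂ (y - y₀) (by rw [Preadditive.sub_comp, hy, sub_self])
      exact ⟨x, by change y₀ + x ≫ f = y; rw [hx]; abel⟩
    exact Set.finite_univ_iff.1 h3
  · intro y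
    obtain ⟨N, hN⟩ := hZ.2 (y ≫ g)
    obtain ⟨x, hx⟩ := D.lift₂ (((p : ℤ) ^ N) • y) (by rw [Preadditive.zsmul_comp, hN])
    obtain ⟨M, hM⟩ := hX.2 x
    refine ⟨M + N, ?_⟩
    rw [pow_add, mul_smul, ← hx, ← Preadditive.zsmul_comp, hM, zero_comp]

theorem FTk.shift {p : ℕ} {k m l : ℤ} (hkl : l + m = k) {X : T} (hX : FTk p l X) :
    FTk p k (X⟦m⟧) := by
  let e := (shiftFunctorAdd' T l m k hkl).app (𝟙_ T)
  constructor
  · have := hX.1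
    refine Finite.of_surjective
      (fun x : (𝟙_ T)⟦l⟧ ⟶ X => (e.hom ≫ x⟦m⟧' : (𝟙_ T)⟦k⟧ ⟶ X⟦m⟧)) fun z => ?_
    obtain ⟨x, rfl⟩ := sphere_shift hkl z
    exact ⟨x, rfl⟩
  · intro z
    obtain ⟨x, rfl⟩ := sphere_shift hkl z
    obtain ⟨N, hN⟩ := hX.2 x
    refine ⟨N, ?_⟩
    rw [← Preadditive.comp_zsmul, ← Functor.map_zsmul, hN, Functor.map_zero, comp_zero]

theorem FTk.of_iso {p : ℕ} {k : ℤ} {X Y : T} (e : X ≅ Y) (hX : FTk p k X) : FTk p k Y := by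
  constructor
  · have := hX.1
    refine Finite.of_surjective (fun x : (𝟙_ T)⟦k⟧ ⟶ X => x ≫ e.hom) fun z => ⟨z ≫ e.inv, ?_⟩
    change (z ≫ e.inv) ≫ e.hom = z
    rw [Category.assoc, e.inv_hom_id, Category.comp_id]
  · intro z
    obtain ⟨N, hN⟩ := hX.2 (z ≫ e.inv)
    refine ⟨N, ?_⟩
    have h1 : (((p : ℤ) ^ N) • (z ≫ e.inv)) ≫ e.hom = 0 := by rw [hN, zero_comp]
    rwa [Preadditive.zsmul_comp, Category.assoc, e.inv_hom_id, Category.comp_id] at h1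

/-- finiteness of the homotopy groups of a bounded above spectrum from the cofibre of a self map
of positive degree -/
theorem ft_down {p : ℕ} {A A' Q : T} {c d : ℤ} (hd : 0 < d) {v : A' ⟶ A} {g : A ⟶ Q}
    {h : Q ⟶ A'⟦(1 : ℤ)⟧} (D : Dist v g h) (e : A' ≅ A⟦d⟧) (hA : Above c A) (hQ : FT p Q) :
    FT p A := by
  obtain ⟨a, b, D'⟩ := Dist.invRot' D
  have hQ' : FT p (Q⟦(-1 : ℤ)⟧) := hQ.shift (-1)
  have main : ∀ (j : ℕ) (k : ℤ), c - j ≤ k → FTk p k A := by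
    intro j
    induction j with
    | zero =>
      intro k hk
      have h0 := hA k (by simpa using hk)
      exact ⟨Finite.of_injective (fun _ => ()) fun x y _ => by rw [h0 x, h0 y],
        fun f => ⟨0, by rw [h0 f, smul_zero]⟩⟩
    | succ j ih =>
      intro k hk
      have h1 : FTk p (k + d) A := ih (k + d) (by push_cast at hk; omega)
      have h2 : FTk p (k + d) A' := FTk.ext D' (hQ' (k + d)) h1
      have h3 : FTk p k ((A⟦d⟧)⟦-d⟧) := (h2.of_iso e).shift (by ring)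
      exact h3.of_iso ((shiftFunctorCompIsoId T d (-d) (by ring)).app A)
  intro k
  refine main (c - k).toNat k ?_
  have := Int.self_le_toNat (c - k)
  omega

/-! ### Injectivity into a telescope -/

theorem inj_of_above' {X Y C : T} {f : X ⟶ Y} {g : Y ⟶ C} {h : C ⟶ X⟦(1 : ℤ)⟧}
    (D : Triangle.mk f g h ∈ distTriang T) {m : ℤ} (hC : Above m C) {k : ℤ} (hk : m ≤ k + 1)
    (y : (𝟙_ T)⟦k⟧ ⟶ X) (hy : y ≫ f = 0) : y = 0 :=
  inj_of_above (D : Dist f g h) hC hk y hy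

variable {X C : ℕ → T} {f : ∀ n, X n ⟶ X (n + 1)} {g : ∀ n, X (n + 1) ⟶ C n}
  {h : ∀ n, C n ⟶ (X n)⟦(1 : ℤ)⟧}

theorem inj_trT (D : ∀ n, Triangle.mk (f n) (g n) (h n) ∈ distTriang T) {c : ℤ}
    (hC : ∀ n : ℕ, Above c (C n)) {m : ℕ} {k : ℤ} (hk : c ≤ k + 1) (j : ℕ)
    (y : (𝟙_ T)⟦k⟧ ⟶ X m) (hy : y ≫ trT f m j = 0) : y = 0 := by
  induction j with
  | zero =>
    rw [trT_zero] at hy
    rw [← hy]
    exact (Category.comp_id y).symm
  | succ j ih =>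
    refine ih (inj_of_above' (D (m + j)) (hC (m + j)) hk _ ?_)
    rw [trT_succ, ← Category.assoc] at hy
    exact hy

theorem inj_ι (D : ∀ n, Triangle.mk (f n) (g n) (h n) ∈ distTriang T) {Z : T}
    {ι : ∀ n, X n ⟶ Z} (hZ : IsTel f ι) {c : ℤ} (hC : ∀ n : ℕ, Above c (C n)) {m : ℕ} {k : ℤ}
    (hk : c ≤ k + 1) (y : (𝟙_ T)⟦k⟧ ⟶ X m) (hy : y ≫ ι m = 0) : y = 0 := by
  obtain ⟨j, hj⟩ := hZ.tel.exists_eq_zero (Vale.Agent.P251.X.cpt_sphere k) y hy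
  exact inj_trT D hC hk j y hj

theorem above_of_iso {n : ℤ} {X Y : T} (e : X ≅ Y) (hX : Above n X) : Above n Y := by
  intro k hk f
  have h := hX k hk (f ≫ e.inv)
  rw [← cancel_mono e.inv, h, zero_comp]

end

section

open Vale.Agent.P251.St Vale.Agent.P251.St.SHCat Vale.Agent.P257.St

/-- `X⟦n⟧ ⊗ Y ≅ (X ⊗ Y)⟦n⟧` -/
noncomputable def shTen {T : SHCat} (X Y : T.C) (n : ℤ) : (X⟦n⟧) ⊗ Y ≅ (X ⊗ Y)⟦n⟧ :=
  ((tensorRight Y).commShiftIso n).app X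

/-- precomposition of a distinguished triangle with an isomorphism -/
theorem dist_precomp {T : SHCat} {A X Y Z : T.C} (α : A ≅ X) {f : X ⟶ Y} {g : Y ⟶ Z}
    {h : Z ⟶ X⟦(1 : ℤ)⟧} (D : Triangle.mk f g h ∈ distTriang T.C) :
    Triangle.mk (α.hom ≫ f) g (h ≫ α.inv⟦(1 : ℤ)⟧') ∈ distTriang T.C := by
  refine isomorphic_distinguished _ D _ ?_
  refine Triangle.isoMk _ _ α (Iso.refl _) (Iso.refl _) ?_ ?_ ?_
  · change (α.hom ≫ f) ≫ 𝟙 _ = α.hom ≫ f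
    rw [Category.comp_id]
  · change g ≫ 𝟙 _ = 𝟙 _ ≫ g
    rw [Category.comp_id, Category.id_comp]
  · change (h ≫ α.inv⟦(1 : ℤ)⟧') ≫ α.hom⟦(1 : ℤ)⟧' = 𝟙 _ ≫ h
    rw [Category.assoc, ← Functor.map_comp, Iso.inv_hom_id, CategoryTheory.Functor.map_id,
      Category.comp_id, Category.id_comp]

theorem telStep_dist {T : SHCat} {F V : T.C} {d : ℤ} {v : Hom (F⟦d⟧) F} {g : Hom F V}
    {h : Hom V (sus (F⟦d⟧))} (D : SHCat.Dist v g h) (n : ℕ) :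
    ∃ (g' : F⟦-(((n + 1 : ℕ) : ℤ) * d)⟧ ⟶ V⟦-(((n + 1 : ℕ) : ℤ) * d)⟧)
      (h' : V⟦-(((n + 1 : ℕ) : ℤ) * d)⟧ ⟶ (F⟦-((n : ℤ) * d)⟧)⟦(1 : ℤ)⟧),
      Triangle.mk (telStep v n) g' h' ∈ distTriang T.C := by
  obtain ⟨w, hw⟩ := Vale.Agent.P251.S.exists_dist_shift D (-(((n + 1 : ℕ) : ℤ) * d))
  exact ⟨_, _, dist_precomp ((shiftFunctorAdd' T.C d (-(((n + 1 : ℕ) : ℤ) * d)) (-((n : ℤ) * d))
    (by push_cast; ring)).app F) hw⟩

/-- One step down a Moore tower. -/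
theorem fibre_step {T : SHCat} {p : ℕ} {F V W C : T.C} {d : ℤ} (hd : 0 < d)
    {v : Hom (F⟦d⟧) F} {g : Hom F V} {h : Hom V (sus (F⟦d⟧))} (D : SHCat.Dist v g h)
    (hW : IsTelescope v W) (hWC : IsZero (W ⊗ C)) {c : ℤ} (hV : Above c (V ⊗ C))
    (hFT : FT p (V ⊗ C)) : Above (c - d - 1) (F ⊗ C) ∧ FT p (F ⊗ C) := by
  obtain ⟨ι, hι⟩ := hW
  choose g' h' D' using telStep_dist D
  have hι' := hι.whiskerRight C
  have hC : ∀ n : ℕ, Above (c - d) (V⟦-(((n + 1 : ℕ) : ℤ) * d)⟧ ⊗ C) := by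
    intro n
    refine above_of_iso (shTen V C _).symm ?_
    refine (hV.shift (-(((n + 1 : ℕ) : ℤ) * d)) (c - ((n + 1 : ℕ) : ℤ) * d) (by ring)).mono ?_
    have : (0 : ℤ) ≤ (n : ℤ) * d := by positivity
    push_cast
    linarith
  let e0 : F ≅ F⟦-(((0 : ℕ) : ℤ) * d)⟧ :=
    (shiftFunctorZero' T.C (-(((0 : ℕ) : ℤ) * d)) (by push_cast; ring)).symm.app F
  have hA : Above (c - d - 1) (F ⊗ C) := by
    intro k hk y
    have h1 : y ≫ (e0.hom ▷ C) = 0 :=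
      inj_ι (fun n => Vale.Agent.P251.S.dist_whiskerRight C (D' n)) hι' hC (m := 0)
        (by omega) _ (hWC.eq_of_tgt _ _)
    rw [← cancel_mono (e0.hom ▷ C), h1, zero_comp]
  exact ⟨hA, ft_down hd (Vale.Agent.P251.S.dist_whiskerRight C D) (shTen F C d) hA hFT⟩

end

end Vale.Agent.P221.H790
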