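import Vale.Agent.P221.H72.Statement2
import Vale.Agent.P221.H72.Fin
import Vale.Agent.P221.H72.PComp

/-!
# P221: the tensor product of an `E`-acyclic finite spectrum and an `E`-local spectrum vanishes
-/

open CategoryTheory MonoidalCategory Limits Pretriangulated

namespace Vale.Agent.P221

open Vale.Agent.P251.St Vale.Agent.P251.St.SHCat Vale.Agent.P257.St

variable {T : SHCat}

namespace H708

theorem acyclic_shift {E A : T.C} (h : Acyclic E A) (m : ℤ) : Acyclic E (A⟦m⟧) := by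
  have h1 : IsZero (E ⊗ A) := (IsZero.iff_id_eq_zero _).2 h
  have h2 : IsZero ((E ⊗ A)⟦m⟧) := (shiftFunctor T.C m).map_isZero h1
  have h3 : IsZero (E ⊗ (A⟦m⟧)) := h2.of_iso (((tensorLeft E).commShiftIso m).app A)
  exact (IsZero.iff_id_eq_zero _).1 h3

theorem acyclic_tensor {E A : T.C} (h : Acyclic E A) (Z : T.C) : Acyclic E (A ⊗ Z) := by
  have h2 : IsZero ((E ⊗ A) ⊗ Z) := by
    rw [IsZero.iff_id_eq_zero]
    have h0 : (𝟙 (E ⊗ A) : E ⊗ A ⟶ E ⊗ A) = 0 := h
    rw [← id_whiskerRight, h0]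
    simp
  exact (IsZero.iff_id_eq_zero _).1 (h2.of_iso (α_ E A Z).symm)

/-- `Y` is `E`-local -/
def Loc (E Y : T.C) : Prop := ∀ A : T.C, Acyclic E A → ∀ g : A ⟶ Y, g = 0

theorem Loc.shift {E Y : T.C} (h : Loc E Y) (m : ℤ) : Loc E (Y⟦m⟧) := by
  intro A hA f
  have h3 := h (A⟦-m⟧) (acyclic_shift hA _) (f⟦-m⟧' ≫ (shiftShiftNeg Y m).hom)
  have h4 : f⟦-m⟧' = 0 := by
    rw [← cancel_mono (shiftShiftNeg Y m).hom, h3, zero_comp]
  exact (shiftFunctor T.C (-m)).map_injective (by rw [h4, Functor.map_zero])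

theorem loc_of_thick {E Z : T.C} (hZ : Loc E Z) {Y : T.C} (hY : Thick (fun X => X = Z) Y) :
    Loc E Y := by
  induction hY with
  | base h => subst h; exact hZ
  | zero h => exact fun A _ g => h.eq_of_tgt _ _
  | shift k _ ih => exact ih.shift k
  | @cof X Y W f g h D _ _ ihX ihY =>
    intro A hA t
    obtain ⟨s, hs⟩ := Triangle.coyoneda_exact₃ _ D t (ihX.shift 1 A hA _)
    rw [hs, ihY A hA s]
    exact zero_comp
  | retract i r hir _ ih =>
    intro A hA t
    have h1 : t = (t ≫ i) ≫ r := by rw [Category.assoc, hir, Category.comp_id]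
    rw [h1, ih A hA (t ≫ i), zero_comp]

end H708

open H708

theorem isZero_tensor_local {p : ℕ} {E V Z : T.C} (hp : p.Prime) (hV : FinPLocal p V)
    (hEV : Acyclic E V) (hZc : PComplete p Z)
    (hZ : ∀ A : T.C, Acyclic E A → ∀ g : Hom A Z, g = 0) : IsZero (V ⊗ Z) := by
  have h1 := thick_fin_tensor hV (pLocal_of_pComplete hp hZc)
  exact (IsZero.iff_id_eq_zero _).2 (loc_of_thick hZ h1 (V ⊗ Z) (acyclic_tensor hEV Z) (𝟙 _))

end Vale.Agent.P221
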