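import Vale.Agent.P221.H72.Final
import Vale.Agent.P221.H72.Statement2
import Vale.Agent.P221.H72.GoodG
import Vale.Agent.P221.H72.Comp1
import Vale.Agent.P221.H72.Comp2
import Vale.Agent.P221.H72.EmZ1
import Vale.Agent.P221.H72.EmZ2
import Vale.Agent.P221.H72.ClsFG
import Vale.Agent.P221.H72.Step
import Vale.Agent.P221.H72.Acy
import Vale.Agent.P221.H72.Van
import Vale.Agent.P221.H72.Conv
import Vale.Agent.P251.H.BLoc

/-!
# P221: assembly of the second part (all fp-spectra)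
-/

open CategoryTheory MonoidalCategory Limits Pretriangulated

namespace Vale.Agent.P221

open Vale.Agent.P251.St Vale.Agent.P251.St.SHCat Vale.Agent.P257.St
open Vale.Agent.P251.T Vale.Agent.P251.S Vale.Agent.P251.H Vale.Agent.P251.M
  Vale.Agent.P251.I Vale.Agent.P251.X

variable {T : SHCat}

theorem emz (S : Susp T) {p : ℕ} (hp : p.Prime) {M : T.C} {i : 𝟙_ T.C ⟶ M}
    {q : M ⟶ (𝟙_ T.C)⟦(1 : ℤ)⟧} (DM : Vale.Agent.P251.H.Dist ((p : ℤ) • 𝟙 (𝟙_ T.C)) i q) {H H₀ : T.C}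
    {e : 𝟙_ T.C ⟶ H} (he : EMp p e) (hH₀ : PComp p H₀) {g : H₀ ⟶ H} {h : H ⟶ H₀⟦(1 : ℤ)⟧}
    (D₀ : Vale.Agent.P251.H.Dist ((p : ℤ) • 𝟙 H₀) g h) {D : T.C} (hD : PComp p D) (hMD : FT p (M ⊗ D)) {a b : ℤ}
    (ha : Conn a D) (hb : Above b D) : Thick (fun X => X = H₀) D := by
  obtain ⟨e0, heg, hZ1, hext⟩ := emz_extend S.toSpaceFunctor hp he hH₀ D₀
  exact emz_core hp DM he hH₀ D₀ (fun X hX k h x => pi_eq_zero_of_surj hX h x) heg hZ1 hext hD
    hMD ha hb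

theorem pcomp_of_thick {p : ℕ} {P : T.C → Prop} (hP : ∀ X, P X → PComp p X) {X : T.C}
    (h : Thick P X) : PComp p X := by
  induction h with
  | base h => exact hP _ h
  | zero h => exact fun _ _ _ => h.eq_of_tgt _ _
  | shift k _ ih => exact ih.shift k
  | cof D _ _ ih₁ ih₂ => exact PComp.cof D ih₁ ih₂
  | retract i r h _ ih =>
    intro W hW f
    have h1 := ih W hW (f ≫ i)
    calc f = (f ≫ i) ≫ r := by rw [Category.assoc, h, Category.comp_id]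
      _ = 0 := by rw [h1, zero_comp]

theorem Tower2.exists_hz {p m : ℕ} {B : T.C} (h : Tower2 p m B) :
    ∃ (H₀ H : T.C) (g : H₀ ⟶ H) (h : H ⟶ H₀⟦(1 : ℤ)⟧) (e : 𝟙_ T.C ⟶ H),
      Vale.Agent.P251.H.Dist ((p : ℤ) • 𝟙 H₀) g h ∧ EMp p e ∧ Thick (fun X => X = B) H₀ := by
  induction h with
  | @base B H g h D hH =>
    obtain ⟨h0, e, he, hpe, hgen⟩ := hH
    exact ⟨B, H, g, h, e, D, ⟨h0, he, hpe, hgen⟩, .base rfl⟩
  | @step m B B' f g h D _ ih =>
    obtain ⟨H₀, H, g', h', e, D', he, hT⟩ := ih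
    refine ⟨H₀, H, g', h', e, D', he, hT.mono ?_⟩
    rintro X rfl
    exact .cof D (.shift _ (.base rfl)) (.base rfl)

theorem Tower2.hasEMG (S : Susp T) {p m : ℕ} (hp : p.Prime) {B : T.C} (h : Tower2 p m B)
    (hB : PComp p B) {M : T.C} {i : 𝟙_ T.C ⟶ M} {q : M ⟶ (𝟙_ T.C)⟦(1 : ℤ)⟧}
    (DM : Vale.Agent.P251.H.Dist ((p : ℤ) • 𝟙 (𝟙_ T.C)) i q) :
    HasEMG (FG p M) (Thick (fun X : T.C => X = B)) := by
  obtain ⟨H₀, H, g, h, e, D₀, he, hT⟩ := h.exists_hz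
  have hH₀ : PComp p H₀ := pcomp_of_thick (by rintro _ rfl; exact hB) hT
  intro D a b hD ha hb
  refine .base ((emz S hp DM he hH₀ D₀ hD.1 hD.2 ha hb).mono ?_)
  rintro X rfl
  exact hT

section

variable {K : ℕ → T.C} {p n : ℕ} {V W : ℕ → T.C} {d : ℕ → ℤ}
  {w : ∀ j : ℕ, Hom ((V j)⟦d j⟧) (V j)} {E : T.C} (hM : IsMooreTower K p n V W d w E)

include hM

/-- down the Moore tower, for an `E`-acyclic spectrum -/
theorem tower_down {C : T.C} (hC : Vale.Agent.P251.St.Acyclic E C) {c : ℤ} (h1 : Above c (V (n + 1) ⊗ C))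
    (h2 : FT p (V (n + 1) ⊗ C)) : ∀ (i j : ℕ), 1 ≤ j → j + i = n + 1 →
      (∃ c, Above c (V j ⊗ C)) ∧ FT p (V j ⊗ C) := by
  intro i
  induction i with
  | zero =>
    intro j hj hji
    obtain rfl : j = n + 1 := by omega
    exact ⟨⟨c, h1⟩, h2⟩
  | succ i ih =>
    intro j hj hji
    obtain ⟨⟨c', hc'⟩, hF⟩ := ih (j + 1) (by omega) (by omega)
    obtain ⟨g, h, D⟩ := hM.step j hj (by omega)
    have hz : IsZero (W j ⊗ C) := (IsZero.iff_id_eq_zero _).2 ((hM.cls C).1 hC j hj (by omega))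
    obtain ⟨h3, h4⟩ := H790.fibre_step (hM.pos j hj (by omega)) D (hM.tel j hj (by omega)) hz hc' hF
    exact ⟨⟨_, h3⟩, h4⟩

theorem tower_conn {X : T.C} {m : ℤ} (hX : Conn m X) : ∀ j : ℕ, 1 ≤ j → j ≤ n + 1 →
    ∃ m : ℤ, Conn m (V j ⊗ X) := by
  intro j hj
  induction j, hj using Nat.le_induction with
  | base =>
    intro _
    obtain ⟨i, q, D⟩ := hM.moore
    have D' := dist_whiskerRight X D
    have h1 : Conn m (𝟙_ T.C ⊗ X) := hX.of_iso (λ_ X).symm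
    exact ⟨m, Conn.ext₃ _ D' h1 (h1.mono (by omega))⟩
  | succ j hj ih =>
    intro hj'
    obtain ⟨m', hm'⟩ := ih (by omega)
    obtain ⟨g, h, D⟩ := hM.step j hj (by omega)
    have D' := dist_whiskerRight X D
    have h1 : Conn (m' + d j) ((V j)⟦d j⟧ ⊗ X) :=
      (hm'.shift (d j) _ rfl).of_iso (shiftTensorIso (V j) X (d j)).symm
    have := hM.pos j hj (by omega)
    exact ⟨m', Conn.ext₃ _ D' hm' (h1.mono (by omega))⟩

theorem tower_ft {X : T.C} {m : ℤ} (hX : Conn m X) (h2 : FT p (V (n + 1) ⊗ X)) :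
    ∀ (i j : ℕ), 1 ≤ j → j + i = n + 1 → FT p (V j ⊗ X) := by
  intro i
  induction i with
  | zero =>
    intro j hj hji
    obtain rfl : j = n + 1 := by omega
    exact h2
  | succ i ih =>
    intro j hj hji
    have hF := ih (j + 1) (by omega) (by omega)
    obtain ⟨g, h, D⟩ := hM.step j hj (by omega)
    obtain ⟨m', hm'⟩ := tower_conn hM hX j hj (by omega)
    obtain ⟨Q, g', h', D'⟩ := exists_cone ((shiftTensorIso (V j) X (d j)).inv ≫ w j ▷ X)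
    obtain ⟨e⟩ : Nonempty (Q ≅ V (j + 1) ⊗ X) := by
      have D'' := dist_whiskerRight X D
      exact ⟨Triangle.π₃.mapIso (isoTriangleOfIso₁₂ _ _ D' D'' (shiftTensorIso (V j) X (d j)).symm
        (Iso.refl _) (by
          change ((shiftTensorIso (V j) X (d j)).inv ≫ w j ▷ X) ≫ 𝟙 _ =
            (shiftTensorIso (V j) X (d j)).inv ≫ w j ▷ X
          rw [Category.comp_id]))⟩
    exact ft_of_cofibre (hM.pos j hj (by omega)) hm' D' (hF.of_iso e.symm)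

theorem ft_top {X : T.C} (hp : p.Prime) (hX : IsFpAt p (V (n + 1)) X) :
    FT p (V (n + 1) ⊗ X) ∧ ∃ c : ℤ, Above c (V (n + 1) ⊗ X) := by
  have hXl : PLocal p X := pLocal_of_pComplete hp hX.complete
  obtain ⟨hfin, a, b, hab⟩ := hX.finTotal
  have hc : Above (b + 1) (V (n + 1) ⊗ X) := fun k hk f => hab k (Or.inr (by omega)) f
  have hVl : PLocal p (V (n + 1) ⊗ X) := by
    intro r hr
    have h1 : IsIso (r • 𝟙 X) := hXl r hr
    have h2 : V (n + 1) ◁ (r • 𝟙 X) = r • 𝟙 (V (n + 1) ⊗ X) := by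
      have h := (tensorLeft (V (n + 1))).map_zsmul (f := 𝟙 X) (r := r)
      exact h.trans (congrArg _ (whiskerLeft_id (V (n + 1)) X))
    change IsIso (r • 𝟙 (V (n + 1) ⊗ X))
    rw [← h2]
    infer_instance
  exact ⟨ft_of_pLocal hp hVl hfin, ⟨_, hc⟩⟩

/-- The `E`-localization of an fp-spectrum. -/
theorem loc_main (hp : p.Prime) {X Z : T.C} (hX : IsFpAt p (V (n + 1)) X) {z : Hom X Z}
    (hz : IsLoc E z) : (∃ m : ℤ, Conn m X) ∧ FG p (V 1) X ∧ FG p (V 1) Z ∧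
      ∃ c : ℤ, EvIso c z := by
  obtain ⟨m, hm⟩ : ∃ m : ℤ, Conn m X := hX.below
  obtain ⟨hFX, c, hc⟩ := ft_top hM hp hX
  obtain ⟨C, g, h, D⟩ := exists_cone z
  have hEC : Vale.Agent.P251.St.Acyclic E C := by
    have D1 := TensorTriangulated.distinguished E _ D
    have h1 : IsIso (E ◁ z) := by
      have h2 := hz.1
      change IsIso (𝟙 E ⊗ₘ z) at h2
      rwa [id_tensorHom] at h2
    exact (IsZero.iff_id_eq_zero _).1 ((Triangle.isZero₃_iff_isIso₁ _ D1).2 h1)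
  have hZc : PComplete p Z := pComplete_of_local hM hz.2
  have hVZ : IsZero (V (n + 1) ⊗ Z) :=
    isZero_tensor_local hp hM.type.fin hM.acyclic hZc hz.2
  have D2 : Vale.Agent.P251.H.Dist _ _ _ := TensorTriangulated.distinguished (V (n + 1)) _ D
  have h3 : FT p (V (n + 1) ⊗ C) := FT.cof D2 hFX (FT.zero hVZ)
  have h4 : Above (c + 1) (V (n + 1) ⊗ C) :=
    Above.ext D2.rot (fun k _ f => hVZ.eq_of_tgt _ _) (hc.shift 1 _ rfl)
  obtain ⟨⟨c', hc'⟩, hC1⟩ := tower_down hM hEC h4 h3 n 1 le_rfl (by omega)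
  have hX1 := tower_ft hM hm hFX n 1 le_rfl (by omega)
  have D3 : Vale.Agent.P251.H.Dist _ _ _ := TensorTriangulated.distinguished (V 1) _ D
  have hCc : PComp p C := PComp.cof D hX.complete hZc
  obtain ⟨i, q, DM⟩ := hM.moore
  have hCa : Above c' C := by
    intro k hk x
    refine pi_eq_zero_of_surj hCc (fun x => ?_) x
    exact exists_of_red DM x (hc' k hk _)
  exact ⟨⟨m, hm⟩, ⟨hX.complete, hX1⟩, ⟨hZc, FT.ext D3 hX1 hC1⟩, ⟨_, evIso_of_above D hCa⟩⟩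

theorem loc_good (S : Susp T) (hp : p.Prime) {B : T.C} (hB : IsForm2 K p n B) {X Z : T.C}
    (hX : IsFpAt p (V (n + 1)) X) {z : Hom X Z} (hz : IsLoc E z) :
    Thick (fun Y => Y = B) X ↔ GoodG (FG p (V 1)) (Thick (fun Y : T.C => Y = B)) Z := by
  obtain ⟨i, q, DM⟩ := hM.moore
  obtain ⟨h1, h2, h3, h4⟩ := loc_main hM hp hX hz
  have hcov : IsCovG (FG p (V 1)) z := ⟨h1, h2, h4⟩
  have hEM := hB.tower.hasEMG S hp hB.fp.complete DM
  have hcl := cls_fg S.toSpaceFunctor DM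
  constructor
  · intro hT
    exact GoodG.of_cov S.toSpaceFunctor hcl hEM h3 hcov (.base hT)
  · intro hG
    exact thick_thick (hG.2 _ z hcov)

theorem loc_one (S : Susp T) (hp : p.Prime) {B : T.C} (hB : IsForm2 K p n B) {X Z : T.C}
    (hX : IsFpAt p (V (n + 1)) X) {z : Hom X Z} (hz : IsLoc E z) (P : T.C → Prop)
    (hP : ∀ Y, P Y → IsFpAt p (V (n + 1)) Y ∧ Thick (fun Y => Y = B) Y)
    (hT : Thick (fun Z' => ∃ (Y : T.C) (y : Hom Y Z'), P Y ∧ IsLoc E y) Z) :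
    Thick (fun Y => Y = B) X := by
  obtain ⟨i, q, DM⟩ := hM.moore
  refine (loc_good hM S hp hB hX hz).2 (good_of_thickG S.toSpaceFunctor
    (cls_fg S.toSpaceFunctor DM) (hB.tower.hasEMG S hp hB.fp.complete DM) ?_ hT)
  rintro Z' ⟨Y, y, hY, hy⟩
  exact (loc_good hM S hp hB (hP Y hY).1 hy).1 (hP Y hY).2

theorem loc_two (S : Susp T) (hp : p.Prime) {B : T.C} (hB : IsForm2 K p n B) {X Z : T.C}
    (hX : IsFpAt p (V (n + 1)) X) {z : Hom X Z} (hz : IsLoc E z) {ZB : T.C} {b : Hom B ZB}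
    (hb : IsLoc E b) (hT : Thick (fun Z' => Z' = ZB) Z) : Thick (fun Y => Y = B) X := by
  refine loc_one hM S hp hB hX hz (fun Y => Y = B) ?_ (hT.mono ?_)
  · rintro _ rfl
    exact ⟨hB.fp.at hM.type, .base rfl⟩
  · rintro _ rfl
    exact .base ⟨B, b, rfl, hb⟩

theorem loc_three (S : Susp T) (hp : p.Prime) {B : T.C} (hB : IsForm2 K p n B) {X Z : T.C}
    (hX : IsFpAt p (V (n + 1)) X) {z : Hom X Z} (hz : IsLoc E z) {l : ℤ} {A : T.C} (a : A ⟶ Z)
    (h1 : Conn l A) (h2 : EvIso l a) :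
    Thick (fun Y => Y = B) X ↔ Thick (fun Y => Y = B) A := by
  obtain ⟨i, q, DM⟩ := hM.moore
  have hEM := hB.tower.hasEMG S hp hB.fp.complete DM
  have hcl := cls_fg S.toSpaceFunctor DM
  obtain ⟨h3, h4, h5, h6⟩ := loc_main hM hp hX hz
  obtain ⟨Q, f, w, D⟩ := exists_cone a
  have hQ : Above l Q := by
    intro k hk y
    rcases eq_or_lt_of_le hk with rfl | hk'
    · obtain ⟨x, -, hx⟩ := les D (l := l - 1) (by ring) y
      obtain ⟨u, rfl⟩ := hx (h1 _ (by omega) x)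
      obtain ⟨t, rfl⟩ := (h2 l le_rfl).2 u
      change (t ≫ a) ≫ f = 0
      rw [Category.assoc, D.zero₁₂, comp_zero]
    · exact above_of_evIso D h2 k (by omega) y
  have hA : FG p (V 1) A := hcl.cover D (bigCell_of_conn S.toSpaceFunctor h1) hQ h5
  have h := thick_iffG S.toSpaceFunctor hcl hEM h5 ⟨h3, h4, h6⟩ ⟨⟨l, h1⟩, hA, ⟨l, h2⟩⟩
  exact ⟨fun hT => thick_thick (h.1 (.base hT)), fun hT => thick_thick (h.2 (.base hT))⟩

end

end Vale.Agent.P221
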