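import Vale.Agent.P221.H72.Final2

/-!
# P221: from `Tower2` to `Tower`
-/

open CategoryTheory MonoidalCategory Limits Pretriangulated

namespace Vale.Agent.P221

open Vale.Agent.P251.St Vale.Agent.P251.St.SHCat Vale.Agent.P257.St

variable {T : SHCat}

theorem Tower2.tower {p m : ℕ} {B : T.C} (h : Tower2 p m B) : Tower p (m + 1) B := by
  induction h with
  | @base B H g h D hH =>
    let α : B⟦2 * ((p : ℤ) ^ 0 - 1)⟧ ≅ B := (shiftFunctorZero' T.C _ (by simp)).app B
    exact .step (H790.dist_precomp α D) (.base hH)
  | step D _ ih => exact .step D ih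

end Vale.Agent.P221
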