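import Vale.Agent.P221.H72.TelS

/-!
# P221, row N2: telescopes kill bounded above objects
-/

open CategoryTheory MonoidalCategory Limits Pretriangulated
open Vale.Agent.P251.T Vale.Agent.P251.S Vale.Agent.P251.H Vale.Agent.P251.M
  Vale.Agent.P251.I Vale.Agent.P251.X

universe v u

set_option linter.unusedSectionVars false

namespace Vale.Agent.P221

open Vale.Agent.P251.St Vale.Agent.P251.St.SHCat Vale.Agent.P257.St

theorem isZero_tel_above {T : SHCat} {F W C : T.C} {d : ℤ} (hd : 0 < d) {v : Hom (F⟦d⟧) F}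
    (hW : IsTelescope v W) {c : ℤ} (hF : Above c (F ⊗ C)) : IsZero (W ⊗ C) := by
  obtain ⟨ι, hι⟩ := hW
  let hT := (hι.whiskerRight C).tel
  have hA : ∀ n : ℕ, Above (c - n * d) ((F⟦-((n : ℤ) * d)⟧) ⊗ C) := fun n =>
    above_of_iso' (shiftTensorIso F C _).symm (hF.shift (-((n : ℤ) * d)) _ (by ring))
  refine StableCat.generator _ fun k g => ?_
  obtain ⟨n, a, ha⟩ := hT.exists_factor (Vale.Agent.P251.X.cpt_sphere k) g
  change a ≫ (ι n ▷ C) = g at ha
  let j : ℕ := (c - k).toNat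
  have hj : c - ((n + j : ℕ) : ℤ) * d ≤ k := by
    have h1 : c - k ≤ (j : ℤ) := Int.self_le_toNat _
    have h2 : (j : ℤ) ≤ ((n + j : ℕ) : ℤ) := by push_cast; omega
    have h3 : ((n + j : ℕ) : ℤ) * 1 ≤ ((n + j : ℕ) : ℤ) * d :=
      mul_le_mul_of_nonneg_left (by omega) (by positivity)
    linarith
  have h4 := hT.trT_ι n j
  change trT (X := fun n : ℕ => (F⟦-((n : ℤ) * d)⟧) ⊗ C) (fun n => telStep v n ▷ C) n j ≫
    (ι (n + j) ▷ C) = ι n ▷ C at h4
  have h5 : a ≫ trT (X := fun n : ℕ => (F⟦-((n : ℤ) * d)⟧) ⊗ C) (fun n => telStep v n ▷ C) n j =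
    0 := hA (n + j) k hj _
  rw [← ha, ← h4, ← Category.assoc, h5, zero_comp]

end Vale.Agent.P221
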