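import Vale.Agent.P221.H72.Final3
import Vale.Agent.P221.H72.TelAb

/-!
# P221: local spectra with degreewise finite homotopy modulo `p`
-/

open CategoryTheory MonoidalCategory Limits Pretriangulated

namespace Vale.Agent.P221

open Vale.Agent.P251.St Vale.Agent.P251.St.SHCat Vale.Agent.P257.St
open Vale.Agent.P251.T Vale.Agent.P251.S Vale.Agent.P251.H Vale.Agent.P251.M
  Vale.Agent.P251.I Vale.Agent.P251.X

variable {T : SHCat}

theorem pLocal_tensor_right {p : ℕ} {X : T.C} (hX : PLocal p X) (A : T.C) :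
    PLocal p (A ⊗ X) := by
  intro r hr
  have h1 : IsIso (r • 𝟙 X) := hX r hr
  have h2 : A ◁ (r • 𝟙 X) = r • 𝟙 (A ⊗ X) := by
    have h := (tensorLeft A).map_zsmul (f := 𝟙 X) (r := r)
    exact h.trans (congrArg _ (whiskerLeft_id A X))
  change IsIso (r • 𝟙 (A ⊗ X))
  rw [← h2]
  infer_instance

/-- Bousfield localizations exist. -/
theorem exists_isLoc (E X : T.C) : ∃ (Z : T.C) (z : Hom X Z), IsLoc E z := by
  obtain ⟨L⟩ := Vale.Agent.P251.H.nonempty_bLoc_of_stableCat E X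
  refine ⟨L.obj, L.toLoc, ?_, fun A hA g => L.isLocal ((IsZero.iff_id_eq_zero _).2 hA) g⟩
  change IsIso (𝟙 E ⊗ₘ L.toLoc)
  rw [id_tensorHom]
  exact L.isIso

section

variable {K : ℕ → T.C} {p n : ℕ} {V W : ℕ → T.C} {d : ℕ → ℤ}
  {w : ∀ j : ℕ, Hom ((V j)⟦d j⟧) (V j)} {E : T.C} (hM : IsMooreTower K p n V W d w E)

include hM

theorem tower_above {C : T.C} {m : ℤ} (hC : Above m C) : ∀ j : ℕ, 1 ≤ j → j ≤ n + 1 →
    ∃ m : ℤ, Above m (V j ⊗ C) := by
  intro j hj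
  induction j, hj using Nat.le_induction with
  | base =>
    intro _
    obtain ⟨i, q, D⟩ := hM.moore
    have D' : Vale.Agent.P251.H.Dist _ _ _ := dist_whiskerRight C D
    have h1 : Above m (𝟙_ T.C ⊗ C) := above_of_iso' (λ_ C).symm hC
    exact ⟨m + 1, Above.ext D'.rot (h1.mono (by omega)) (h1.shift 1 _ rfl)⟩
  | succ j hj ih =>
    intro hj'
    obtain ⟨m', hm'⟩ := ih (by omega)
    obtain ⟨g, h, D⟩ := hM.step j hj (by omega)
    have D' : Vale.Agent.P251.H.Dist _ _ _ := dist_whiskerRight C D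
    have h1 : Above (m' + d j) ((V j)⟦d j⟧ ⊗ C) :=
      above_of_iso' (shiftTensorIso (V j) C (d j)).symm (hm'.shift (d j) _ rfl)
    have := hM.pos j hj (by omega)
    exact ⟨m' + d j + 1, Above.ext D'.rot (hm'.mono (by omega)) (h1.shift 1 _ rfl)⟩

theorem acyclic_above {C : T.C} {m : ℤ} (hC : Above m C) : Vale.Agent.P251.St.Acyclic E C :=
  (hM.cls C).2 fun j h1 h2 => by
    obtain ⟨c, hc⟩ := tower_above hM hC j h1 (by omega)
    exact (IsZero.iff_id_eq_zero _).1 (isZero_tel_above (hM.pos j h1 h2) (hM.tel j h1 h2) hc)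

theorem tower_ft_up {X : T.C} (h1 : FT p (V 1 ⊗ X)) : ∀ j : ℕ, 1 ≤ j → j ≤ n + 1 →
    FT p (V j ⊗ X) := by
  intro j hj
  induction j, hj using Nat.le_induction with
  | base => exact fun _ => h1
  | succ j hj ih =>
    intro hj'
    have h2 := ih (by omega)
    obtain ⟨g, h, D⟩ := hM.step j hj (by omega)
    exact FT.cof (dist_whiskerRight X D)
      ((h2.shift (d j)).of_iso (shiftTensorIso (V j) X (d j)).symm) h2

/-- A connective cover of an `E`-local spectrum `Z` with degreewise finite homotopy modulo `p` is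
an fp-spectrum, with `E`-localization `Z`. -/
theorem cover_fp (S : Susp T) (hp : p.Prime) {Z : T.C}
    (hZ : ∀ A : T.C, Vale.Agent.P251.St.Acyclic E A → ∀ g : Hom A Z, g = 0)
    (hfin : ∀ k : ℤ, Finite (Hom (sphere T k) (ten (V 1) Z))) :
    ∃ (A : T.C) (a : Hom A Z), IsFpAt p (V (n + 1)) A ∧ IsLoc E a := by
  have hZc : PComplete p Z := pComplete_of_local hM hZ
  have hFZ : FT p (V 1 ⊗ Z) :=
    ft_of_pLocal hp (pLocal_tensor_right (pLocal_of_pComplete hp hZc) (V 1)) hfin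
  have hVZ : IsZero (V (n + 1) ⊗ Z) :=
    isZero_tensor_local hp hM.type.fin hM.acyclic hZc hZ
  obtain ⟨A, Z', a, f, w', D, hA, hZ'⟩ := exists_cover 0 Z
  obtain ⟨i, q, DM⟩ := hM.moore
  have hFG : FG p (V 1) A := (cls_fg S.toSpaceFunctor DM).cover D hA hZ' ⟨hZc, hFZ⟩
  have hcA : Conn 0 A := conn_of_bigCell S.toSpaceFunctor hA
  have h1 : FT p (V (n + 1) ⊗ A) := tower_ft_up hM hFG.2 (n + 1) (by omega) le_rfl
  obtain ⟨m, hm⟩ := tower_conn hM hcA (n + 1) (by omega) le_rfl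
  obtain ⟨c, hc⟩ := tower_above hM hZ' (n + 1) (by omega) le_rfl
  have D2 : Vale.Agent.P251.H.Dist _ _ _ :=
    TensorTriangulated.distinguished (V (n + 1)) _ D
  have hab : ∀ k : ℤ, c ≤ k → ∀ x : (𝟙_ T.C)⟦k⟧ ⟶ V (n + 1) ⊗ A, x = 0 := fun k hk x =>
    inj_of_above D2 hc (by omega) x (hVZ.eq_of_tgt _ _)
  refine ⟨A, a, ⟨hFG.1, ⟨0, hcA⟩, fun k => (h1 k).1, m, c, ?_⟩, ?_, hZ⟩
  · rintro k (hk | hk) x
    · exact hm k hk x
    · exact hab k (by omega) x
  · change IsIso (𝟙 E ⊗ₘ a)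
    rw [id_tensorHom]
    have D1 := TensorTriangulated.distinguished E _ D
    exact (Triangle.isZero₃_iff_isIso₁ _ D1).1
      ((IsZero.iff_id_eq_zero _).2 (acyclic_above hM hZ'))

theorem image_iff (S : Susp T) (hp : p.Prime) (Z : T.C) :
    ((∀ A : T.C, Vale.Agent.P251.St.Acyclic E A → ∀ g : Hom A Z, g = 0) ∧
      ∀ k : ℤ, Finite (Hom (sphere T k) (ten (V 1) Z))) ↔
    ∃ (X : T.C) (z : Hom X Z), IsFpAt p (V (n + 1)) X ∧ IsLoc E z := by
  constructor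
  · rintro ⟨h1, h2⟩
    exact cover_fp hM S hp h1 h2
  · rintro ⟨X, z, hX, hz⟩
    exact ⟨hz.2, fun k => ((loc_main hM hp hX hz).2.2.1.2 k).1⟩

theorem loc_iff (S : Susp T) (hp : p.Prime) {B : T.C} (hB : IsForm2 K p n B) {X Z : T.C}
    (hX : IsFpAt p (V (n + 1)) X) {z : Hom X Z} (hz : IsLoc E z) {ZB : T.C} {b : Hom B ZB}
    (hb : IsLoc E b) : Thick (fun Y => Y = B) X ↔ Thick (fun Y => Y = ZB) Z :=
  ⟨fun h => thick_of_loc hb hz h, fun h => loc_two hM S hp hB hX hz hb h⟩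

/-- the conjecture is equivalent to its local version -/
theorem q1_iff (S : Susp T) (hp : p.Prime) {B : T.C} (hB : IsForm2 K p n B) {ZB : T.C}
    {b : Hom B ZB} (hb : IsLoc E b) :
    (∀ X : T.C, IsFpAt p (V (n + 1)) X → Thick (fun Y => Y = B) X) ↔
    (∀ Z : T.C, (∀ A : T.C, Vale.Agent.P251.St.Acyclic E A → ∀ g : Hom A Z, g = 0) →
      (∀ k : ℤ, Finite (Hom (sphere T k) (ten (V 1) Z))) → Thick (fun Y => Y = ZB) Z) := by
  constructor
  · intro h Z h1 h2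
    obtain ⟨A, a, hA, ha⟩ := cover_fp hM S hp h1 h2
    exact (loc_iff hM S hp hB hA ha hb).1 (h A hA)
  · intro h X hX
    obtain ⟨Z, z, hz⟩ := exists_isLoc E X
    exact (loc_iff hM S hp hB hX hz hb).2
      (h Z hz.2 fun k => ((loc_main hM hp hX hz).2.2.1.2 k).1)

end

/-- the map from `F ⊗ X` to its telescope -/
theorem exists_tel_map {p : ℕ} (hp : p.Prime) {F V W : T.C}
    {d : ℤ} (hd : 0 < d) {v : Hom (F⟦d⟧) F} {g : Hom F V} {h : Hom V (sus (F⟦d⟧))}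
    (D : SHCat.Dist v g h) (hF : FinPLocal p F) (hW : IsTelescope v W) {X : T.C}
    (hX : IsFpAt p V X) : ∃ (ι : Hom (ten F X) (ten W X)) (c : ℤ), EvIso c ι := by
  obtain ⟨hm, hFX, c, hc⟩ := fp_tensor hp hd D hF hX
  obtain ⟨ι, hι, hWX⟩ := tel_tensor hd D hW hFX hc
  exact ⟨ι, _, hι⟩

end Vale.Agent.P221
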