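import Vale.Agent.P221.H72.FTlem

/-!
# P221: spectra with a connective cover in a thick subcategory
-/

open CategoryTheory MonoidalCategory Limits Pretriangulated
open Vale.Agent.P251.T Vale.Agent.P251.S Vale.Agent.P251.H Vale.Agent.P251.M
  Vale.Agent.P251.I Vale.Agent.P251.X

universe v u

set_option linter.unusedSectionVars false

namespace Vale.Agent.P221

variable {T : Type u} [Category.{v} T] [Preadditive T] [HasZeroObject T]
    [HasShift T ℤ] [∀ n : ℤ, (shiftFunctor T n).Additive] [Pretriangulated T] [IsTriangulated T]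
    [MonoidalCategory T] [SymmetricCategory T] [TensorTriangulated T] [MonoidalClosed T]
    [HasCoproducts.{0} T] [HasProducts.{0} T] [StableCat T] {p : ℕ}

/-! ### Maps which are isomorphisms on homotopy groups in high degrees -/

theorem EvIso.shift {X Y : T} {f : X ⟶ Y} {n : ℤ} (hf : EvIso n f) (m q : ℤ) (h : n + m = q) :
    EvIso q (f⟦m⟧') := by
  intro k hk
  have hb := hf (k - m) (by omega)
  constructor
  · intro x y hxy
    obtain ⟨x, rfl⟩ := sphere_shift (l := k - m) (by ring) x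
    obtain ⟨y, rfl⟩ := sphere_shift (l := k - m) (by ring) y
    have h1 : x = y := by
      apply hb.1
      apply (shiftFunctor T m).map_injective
      change (x ≫ f)⟦m⟧' = (y ≫ f)⟦m⟧'
      rw [Functor.map_comp, Functor.map_comp,
        ← cancel_epi ((shiftFunctorAdd' T (k - m) m k (by ring)).app (𝟙_ T)).hom]
      simpa only [Category.assoc] using hxy
    rw [h1]
  · intro z
    obtain ⟨z, rfl⟩ := sphere_shift (l := k - m) (by ring) z
    obtain ⟨x, rfl⟩ := hb.2 z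
    refine ⟨((shiftFunctorAdd' T (k - m) m k (by ring)).app (𝟙_ T)).hom ≫ x⟦m⟧', ?_⟩
    change (_ ≫ x⟦m⟧') ≫ f⟦m⟧' = _ ≫ (x ≫ f)⟦m⟧'
    rw [Functor.map_comp, Category.assoc]

theorem EvIso.of_comp {X Y Z : T} {f : X ⟶ Y} {g : Y ⟶ Z} {n : ℤ} (hfg : EvIso n (f ≫ g))
    (hg : EvIso n g) : EvIso n f := by
  intro k hk
  have h1 := hfg k hk
  have h2 := hg k hk
  constructor
  · intro x y hxy
    apply h1.1
    change x ≫ f ≫ g = y ≫ f ≫ g
    change x ≫ f = y ≫ f at hxy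
    rw [← Category.assoc, hxy, Category.assoc]
  · intro y
    obtain ⟨x, hx⟩ := h1.2 (y ≫ g)
    refine ⟨x, h2.1 ?_⟩
    change (x ≫ f) ≫ g = y ≫ g
    rw [Category.assoc]
    exact hx

/-- the five lemma -/
theorem five {X Y Z X' Y' Z' : T} {f : X ⟶ Y} {g : Y ⟶ Z} {h : Z ⟶ X⟦(1 : ℤ)⟧}
    (D : Dist f g h) {f' : X' ⟶ Y'} {g' : Y' ⟶ Z'} {h' : Z' ⟶ X'⟦(1 : ℤ)⟧} (D' : Dist f' g' h')
    {a : X ⟶ X'} {b : Y ⟶ Y'} {c : Z ⟶ Z'} (h₁ : f ≫ b = a ≫ f') (h₂ : g ≫ c = b ≫ g')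
    (h₃ : h ≫ a⟦(1 : ℤ)⟧' = c ≫ h') {n : ℤ} (ha : EvIso n a) (hb : EvIso n b) :
    EvIso (n + 1) c := by
  have ha1 := ha.shift 1 (n + 1) rfl
  have hb1 := hb.shift 1 (n + 1) rfl
  intro k hk
  constructor
  · intro s s' hs
    rw [← sub_eq_zero]
    replace hs : (s - s') ≫ c = 0 := by
      rw [Preadditive.sub_comp, sub_eq_zero]; exact hs
    generalize s - s' = s at hs
    have h4 : s ≫ h = 0 := (ha1 k hk).1 (by
      change (s ≫ h) ≫ a⟦(1 : ℤ)⟧' = 0 ≫ a⟦(1 : ℤ)⟧'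
      rw [Category.assoc, h₃, ← Category.assoc, hs, zero_comp, zero_comp])
    obtain ⟨u, rfl⟩ := D.lift₃ s h4
    obtain ⟨x, hx⟩ := D'.lift₂ (u ≫ b) (by
      rw [Category.assoc, ← h₂, ← Category.assoc, hs])
    obtain ⟨x', rfl⟩ := (ha k (by omega)).2 x
    have h5 : u = x' ≫ f := (hb k (by omega)).1 (by
      change u ≫ b = (x' ≫ f) ≫ b
      rw [Category.assoc, h₁, ← hx]
      exact Category.assoc _ _ _)
    rw [h5, Category.assoc, D.zero₁₂, comp_zero]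
  · intro z
    obtain ⟨t, ht⟩ := (ha1 k hk).2 (z ≫ h')
    change t ≫ a⟦(1 : ℤ)⟧' = z ≫ h' at ht
    have h4 : t ≫ f⟦(1 : ℤ)⟧' = 0 := (hb1 k hk).1 (by
      change (t ≫ f⟦(1 : ℤ)⟧') ≫ b⟦(1 : ℤ)⟧' = 0 ≫ b⟦(1 : ℤ)⟧'
      rw [Category.assoc, ← Functor.map_comp, h₁, Functor.map_comp, ← Category.assoc, ht,
        Category.assoc, D'.zero₃₁, comp_zero, zero_comp])
    obtain ⟨s, rfl⟩ := D.lift₁ t h4
    obtain ⟨y, hy⟩ := D'.lift₃ (z - s ≫ c) (by
      rw [Preadditive.sub_comp, Category.assoc, ← h₃, ← ht, Category.assoc, sub_self])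
    obtain ⟨y', rfl⟩ := (hb k (by omega)).2 y
    refine ⟨s + y' ≫ g, ?_⟩
    change (s + y' ≫ g) ≫ c = z
    rw [Preadditive.add_comp, Category.assoc, h₂, ← Category.assoc]
    change s ≫ c + (y' ≫ b) ≫ g' = z
    rw [hy]
    abel

/-! ### Covers -/

theorem ft_cover (F : SpaceFunctor T) {n : ℤ} {A X X' : T} {a : A ⟶ X} {f : X ⟶ X'}
    {w : X' ⟶ A⟦(1 : ℤ)⟧} (D : Dist a f w) (hA : BigCell T n A) (hX' : Above n X')
    (hX : FT p X) : FT p A := by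
  have hA' := conn_of_bigCell F hA
  intro k
  rcases lt_or_ge k n with h | h
  · exact ⟨Finite.of_injective (fun _ => ()) fun x y _ => by
      rw [hA' k h x, hA' k h y], fun x => ⟨0, by rw [hA' k h x, smul_zero]⟩⟩
  · have hi : ∀ x : (𝟙_ T)⟦k⟧ ⟶ A, x ≫ a = 0 → x = 0 := fun x hx =>
      inj_of_above D hX' (by omega) x hx
    constructor
    · have := (hX k).1
      refine Finite.of_injective (fun x : (𝟙_ T)⟦k⟧ ⟶ A => x ≫ a) fun x y hxy => ?_
      rw [← sub_eq_zero]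
      exact hi _ (by rw [Preadditive.sub_comp, sub_eq_zero]; exact hxy)
    · intro x
      obtain ⟨N, hN⟩ := (hX k).2 (x ≫ a)
      exact ⟨N, hi _ (by rw [Preadditive.zsmul_comp, hN])⟩

variable (T p) in
/-- bounded spectra with finite `p`-groups as homotopy groups are in `Thick P` -/
def HasEM (P : T → Prop) : Prop :=
  ∀ (D : T) (a b : ℤ), FT p D → Conn a D → Above b D → Thick P D

/-- `A` is a connective cover of `Z`, up to bounded objects -/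
structure IsCov (p : ℕ) {A Z : T} (a : A ⟶ Z) : Prop where
  conn : ∃ m : ℤ, Conn m A
  ft : FT p A
  ev : ∃ n : ℤ, EvIso n a

section

variable [LocallySmall.{0} T] (F : SpaceFunctor T) {P : T → Prop} (hP : HasEM T p P)

include F hP

theorem thick_iff_aux {Z : T} {A : T} {a : A ⟶ Z} {m n : ℤ} (hA : Conn m A) (hFA : FT p A)
    (hev : EvIso n a) {k : ℤ} (hk : k ≤ m) {C Z' : T} {c : C ⟶ Z} {f : Z ⟶ Z'}
    {w : Z' ⟶ C⟦(1 : ℤ)⟧} (D : Dist c f w) (hC : BigCell T k C) (hZ' : Above k Z')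
    (hFC : FT p C) : Thick P A ↔ Thick P C := by
  obtain ⟨a', rfl⟩ := D.lift₂ a
    (hom_eq_zero (bigCell_of_conn F (hA.mono hk)) hZ' _)
  obtain ⟨Q, g, h, D'⟩ := exists_cone a'
  have h1 : EvIso (max n k) a' := EvIso.of_comp (hev.mono (le_max_left _ _))
    ((evIso_of_above D hZ').mono (le_max_right _ _))
  have hQ : Thick P Q := by
    refine hP Q k (max n k + 1) (FT.cof D' hFA hFC) ?_ (above_of_evIso D' h1)
    exact Conn.ext₃ _ D' (conn_of_bigCell F hC) (hA.mono (by omega))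
  exact ⟨fun hT => Thick.cof₂ D' hT hQ, fun hT => Thick.cof₁ D' hT hQ⟩

theorem thick_iff {Z A B : T} (hZ : FT p Z) {a : A ⟶ Z} {b : B ⟶ Z} (ha : IsCov p a)
    (hb : IsCov p b) : Thick P A ↔ Thick P B := by
  obtain ⟨⟨m, hm⟩, hFA, ⟨n, hn⟩⟩ := ha
  obtain ⟨⟨m', hm'⟩, hFB, ⟨n', hn'⟩⟩ := hb
  obtain ⟨C, Z', c, f, w, D, hC, hZ'⟩ := exists_cover (min m m') Z
  have hFC := ft_cover F D hC hZ' hZ
  exact (thick_iff_aux F hP hm hFA hn (min_le_left _ _) D hC hZ' hFC).trans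
    (thick_iff_aux F hP hm' hFB hn' (min_le_right _ _) D hC hZ' hFC).symm

omit hP in
theorem exists_isCov {Z : T} (hZ : FT p Z) (k : ℤ) : ∃ (C Z' : T) (c : C ⟶ Z) (f : Z ⟶ Z')
    (w : Z' ⟶ C⟦(1 : ℤ)⟧), Dist c f w ∧ BigCell T k C ∧ Above k Z' ∧ IsCov p c := by
  obtain ⟨C, Z', c, f, w, D, hC, hZ'⟩ := exists_cover k Z
  exact ⟨C, Z', c, f, w, D, hC, hZ', ⟨k, conn_of_bigCell F hC⟩, ft_cover F D hC hZ' hZ,
    ⟨k, evIso_of_above D hZ'⟩⟩

end

variable (p) in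
/-- the homotopy groups of `Z` are finite `p`-groups and the connective covers of `Z` are in
`Thick P` -/
def Good (P : T → Prop) (Z : T) : Prop :=
  FT p Z ∧ ∀ (A : T) (a : A ⟶ Z), IsCov p a → Thick P A

section

variable [LocallySmall.{0} T] (F : SpaceFunctor T) {P : T → Prop} (hP : HasEM T p P)

include F hP

theorem Good.of_cov {Z A : T} (hZ : FT p Z) {a : A ⟶ Z} (ha : IsCov p a) (hA : Thick P A) :
    Good p P Z :=
  ⟨hZ, fun _ _ hb => (thick_iff F hP hZ ha hb).1 hA⟩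

theorem Good.zero {Z : T} (hZ : IsZero Z) : Good p P Z := by
  refine Good.of_cov F hP (FT.zero hZ) (a := 𝟙 Z) ⟨⟨0, Conn.zero hZ⟩, FT.zero hZ, ⟨0, ?_⟩⟩
    (.zero hZ)
  exact fun k _ => ⟨fun _ _ _ => hZ.eq_of_tgt _ _, fun y => ⟨y, hZ.eq_of_tgt _ _⟩⟩

theorem Good.shift {Z : T} (hZ : Good p P Z) (k : ℤ) : Good p P (Z⟦k⟧) := by
  obtain ⟨C, Z', c, f, w, D, hC, hZ', ⟨⟨m, hm⟩, h1, ⟨n, hn⟩⟩⟩ := exists_isCov F hZ.1 0
  refine Good.of_cov F hP (hZ.1.shift k) (a := c⟦k⟧')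
    ⟨⟨_, hm.shift k _ rfl⟩, h1.shift k, ⟨_, hn.shift k _ rfl⟩⟩ ?_
  exact .shift k (hZ.2 C c ⟨⟨m, hm⟩, h1, ⟨n, hn⟩⟩)

theorem Good.cof {X Y Z : T} {f : X ⟶ Y} {g : Y ⟶ Z} {h : Z ⟶ X⟦(1 : ℤ)⟧}
    (D : Dist f g h) (hX : Good p P X) (hY : Good p P Y) : Good p P Z := by
  obtain ⟨A, X', a, a', wa, DA, hA, hX', hca⟩ := exists_isCov F hX.1 0
  obtain ⟨B, Y', b, b', wb, DB, hB, hY', hcb⟩ := exists_isCov F hY.1 0
  obtain ⟨α, hα⟩ := DB.lift₂ (a ≫ f) (hom_eq_zero hA hY' _)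
  obtain ⟨C, γ, δ, DC⟩ := exists_cone α
  obtain ⟨c, h₂, h₃⟩ := DC.map₃ D a b hα
  refine Good.of_cov F hP (FT.cof D hX.1 hY.1) (a := c)
    ⟨⟨0, ?_⟩, FT.cof DC hca.ft hcb.ft, ⟨1, ?_⟩⟩ ?_
  · exact Conn.ext₃ _ DC (conn_of_bigCell F hB) ((conn_of_bigCell F hA).mono (by omega))
  · exact five DC D hα h₂ h₃ (evIso_of_above DA hX') (evIso_of_above DB hY')
  · exact .cof DC (hX.2 A a hca) (hY.2 B b hcb)

theorem Good.retract {X Y : T} (i : X ⟶ Y) (r : Y ⟶ X) (h : i ≫ r = 𝟙 X) (hY : Good p P Y) :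
    Good p P X := by
  have hX := hY.1.retract i r h
  obtain ⟨A, X', a, a', wa, DA, hA, hX', hca⟩ := exists_isCov F hX 0
  obtain ⟨B, Y', b, b', wb, DB, hB, hY', hcb⟩ := exists_isCov F hY.1 0
  obtain ⟨α, hα⟩ := DB.lift₂ (a ≫ i) (hom_eq_zero hA hY' _)
  obtain ⟨β, hβ⟩ := DA.lift₂ (b ≫ r) (hom_eq_zero hB hX' _)
  refine Good.of_cov F hP hX hca (.retract α β ?_ (hY.2 B b hcb))
  rw [← sub_eq_zero]
  obtain ⟨s, t, D'⟩ := Dist.invRot' DA
  obtain ⟨u, hu⟩ := D'.lift₂ (α ≫ β - 𝟙 A) (by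
    rw [Preadditive.sub_comp, Category.assoc, hβ, ← Category.assoc, hα, Category.assoc, h,
      Category.comp_id, Category.id_comp, sub_self])
  rw [← hu, hom_eq_zero hA ((hX'.shift (-1) (-1) (by norm_num)).mono (by norm_num)) u, zero_comp]

/-- The good spectra form a thick subcategory. -/
theorem good_of_thick {P' : T → Prop} (h : ∀ X, P' X → Good p P X) {Z : T} (hZ : Thick P' Z) :
    Good p P Z := by
  induction hZ with
  | base hX => exact h _ hX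
  | zero hX => exact Good.zero F hP hX
  | shift k _ ih => exact Good.shift F hP ih k
  | cof D _ _ ih₁ ih₂ => exact Good.cof F hP D ih₁ ih₂
  | retract i r hir _ ih => exact Good.retract F hP i r hir ih

end

end Vale.Agent.P221
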