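import Vale.Agent.P221.H72.Low

/-!
# P221, row D2: finiteness of homotopy groups of a bounded above object from the cofibre of a
self map of positive degree
-/

open CategoryTheory MonoidalCategory Limits Pretriangulated
open Vale.Agent.P251.T Vale.Agent.P251.S Vale.Agent.P251.H Vale.Agent.P251.M
  Vale.Agent.P251.I Vale.Agent.P251.X

universe v u

set_option linter.unusedSectionVars false

namespace Vale.Agent.P221

variable {T : Type u} [Category.{v} T] [Preadditive T] [HasZeroObject T]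
    [HasShift T ℤ] [∀ n : ℤ, (shiftFunctor T n).Additive] [Pretriangulated T] [IsTriangulated T]
    [MonoidalCategory T] [SymmetricCategory T] [TensorTriangulated T] [MonoidalClosed T]
    [HasCoproducts.{0} T] [HasProducts.{0} T] [StableCat T] {p : ℕ}

theorem FTk.unshift {X : T} {l m k : ℤ} (h : l + m = k) (hX : FTk p k (X⟦m⟧)) : FTk p l X := by
  let e := (shiftFunctorAdd' T l m k h).app (𝟙_ T)
  have hinj : Function.Injective
      (fun x : (𝟙_ T)⟦l⟧ ⟶ X => (e.hom ≫ x⟦m⟧' : (𝟙_ T)⟦k⟧ ⟶ X⟦m⟧)) := by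
    intro x y hxy
    apply (shiftFunctor T m).map_injective
    rw [← cancel_epi e.hom]
    exact hxy
  refine ⟨?_, fun x => ?_⟩
  · have := hX.1
    exact Finite.of_injective _ hinj
  · obtain ⟨N, hN⟩ := hX.2 (e.hom ≫ x⟦m⟧')
    refine ⟨N, hinj ?_⟩
    change e.hom ≫ (((p : ℤ) ^ N) • x)⟦m⟧' = e.hom ≫ (0 : (𝟙_ T)⟦l⟧ ⟶ X)⟦m⟧'
    rw [Functor.map_zsmul, Preadditive.comp_zsmul, hN, Functor.map_zero, comp_zero]

/-- ROW D2 -/
theorem ft_of_cofibre_above {A Q : T} {m d : ℤ} (hd : 0 < d) (hA : Above m A) {v : A⟦d⟧ ⟶ A}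
    {g : A ⟶ Q} {h : Q ⟶ (A⟦d⟧)⟦(1 : ℤ)⟧} (D : Dist v g h) (hQ : FT p Q) : FT p A := by
  obtain ⟨a, b, D'⟩ := Dist.invRot' D
  have key : ∀ n : ℕ, ∀ k : ℤ, m - n ≤ k → FTk p k A := by
    intro n
    induction n with
    | zero =>
      intro k hk
      have hk' : m ≤ k := by simpa using hk
      have h0 : ∀ f : (𝟙_ T)⟦k⟧ ⟶ A, f = 0 := fun f => hA k hk' f
      exact ⟨Finite.of_injective (fun _ => ()) fun x y _ => (h0 x).trans (h0 y).symm,
        fun f => ⟨0, by rw [h0 f, smul_zero]⟩⟩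
    | succ n ih =>
      intro k hk
      push_cast at hk
      have h1 : FTk p (k + d + 1) Q := hQ (k + d + 1)
      have h2 : FTk p (k + d) (Q⟦(-1 : ℤ)⟧) := h1.shift (by ring)
      have h3 : FTk p (k + d) A := ih (k + d) (by omega)
      exact (FTk.ext D' h2 h3).unshift rfl
  intro k
  exact key (m - k).toNat k (by
    have := Int.self_le_toNat (m - k)
    omega)

end Vale.Agent.P221
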