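import Vale.Agent.P221.H72.Defs
import Vale.Agent.P257.H702.Statement

/-!
# P221, statement layer: fp-spectra, forms of `BP⟨n⟩`, telescopes

On top of the definitions of `P251/St/Base.lean`, `P251/St/Chrom.lean` (stable homotopy categories
`T` with a suspension spectrum functor `S`, Morava `K`-theories) and `P257/H702/Statement.lean`
(finite `p`-local spectra `FinPLocal`), and of `P221/H72/Defs.lean` (`Thick P`).
-/

open CategoryTheory MonoidalCategory Limits Pretriangulated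

namespace Vale.Agent.P221

open Vale.Agent.P251.St Vale.Agent.P251.St.SHCat Vale.Agent.P257.St

variable {T : SHCat}

/-- `X` is `p`-complete: there are no maps to `X` from spectra on which `p` is invertible. -/
def PComplete (p : ℕ) (X : T.C) : Prop :=
  ∀ W : T.C, IsIso (zmul (p : ℤ) (ident W)) → ∀ f : Hom W X, f = 0

/-- `X` is bounded below: `π_k X = 0` for all `k` below some bound. -/
def BddBelow' (X : T.C) : Prop :=
  ∃ a : ℤ, ∀ k : ℤ, k < a → ∀ f : Hom (sphere T k) X, f = 0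

/-- `π_* X` is finite in total. -/
def FinTotal (X : T.C) : Prop :=
  (∀ k : ℤ, Finite (Hom (sphere T k) X)) ∧
    ∃ a b : ℤ, ∀ k : ℤ, (k < a ∨ b < k) → ∀ f : Hom (sphere T k) X, f = 0

/-- `V` is a finite `p`-local spectrum of type `j`, if `K i` is the `i`-th Morava `K`-theory. -/
structure IsType (K : ℕ → T.C) (p j : ℕ) (V : T.C) : Prop where
  fin : FinPLocal p V
  acyclic : ∀ i < j, Acyclic (K i) V
  not_acyclic : ¬ Acyclic (K j) V

/-- `X` is an fp-spectrum of fp-type at most `n`. -/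
structure IsFp (K : ℕ → T.C) (p n : ℕ) (X : T.C) : Prop where
  complete : PComplete p X
  below : BddBelow' X
  finTotal : ∀ V : T.C, IsType K p (n + 1) V → FinTotal (ten V X)

/-- `X` is `p`-complete and bounded below, and `π_*(V ⊗ X)` is finite in total. (If `V` is a finite
spectrum of type `n + 1`: `X` is an fp-spectrum of fp-type at most `n`, tested on `V`.) -/
structure IsFpAt (p : ℕ) (V X : T.C) : Prop where
  complete : PComplete p X
  below : BddBelow' X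
  finTotal : FinTotal (ten V X)

theorem IsFp.at {K : ℕ → T.C} {p n : ℕ} {V X : T.C} (h : IsFp K p n X)
    (hV : IsType K p (n + 1) V) : IsFpAt p V X :=
  ⟨h.complete, h.below, h.finTotal V hV⟩

/-- `H` is the Eilenberg-Mac Lane spectrum of `𝔽_p`. -/
def IsHFp (p : ℕ) (H : T.C) : Prop :=
  (∀ k : ℤ, k ≠ 0 → ∀ g : Hom (sphere T k) H, g = 0) ∧
    ∃ e : Hom T.one H, e ≠ 0 ∧ zmul (p : ℤ) e = 0 ∧ ∀ f : Hom T.one H, ∃ m : ℤ, f = zmul m e

/-- There are cofibre sequences `Σ^{2(p^i-1)} B_i ⟶ B_i ⟶ B_{i-1}`, `0 ≤ i < m`, with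
`B = B_{m-1}` and `B_{-1} = H𝔽_p`. -/
inductive Tower (p : ℕ) : ℕ → T.C → Prop
  | base {H : T.C} : IsHFp p H → Tower p 0 H
  | step {m : ℕ} {B B' : T.C} {f : Hom (B⟦2 * ((p : ℤ) ^ m - 1)⟧) B} {g : Hom B B'}
      {h : Hom B' (sus (B⟦2 * ((p : ℤ) ^ m - 1)⟧))} :
      Dist f g h → Tower p m B' → Tower p (m + 1) B

/-- `B` is an fp-spectrum of fp-type at most `n` from which `H𝔽_p` is obtained by killing
successively self maps of degrees `|v_n|, …, |v_1|, |v_0| = 0`, as every standard form of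
`BP⟨n⟩`. -/
structure IsForm (K : ℕ → T.C) (p n : ℕ) (B : T.C) : Prop where
  fp : IsFp K p n B
  tower : Tower p (n + 1) B

/-- the map `Σ^{-nd} F ⟶ Σ^{-(n+1)d} F` given by `v : Σ^d F ⟶ F` -/
noncomputable def telStep {F : T.C} {d : ℤ} (v : Hom (F⟦d⟧) F) (n : ℕ) :
    Hom (F⟦-((n : ℤ) * d)⟧) (F⟦-(((n + 1 : ℕ) : ℤ) * d)⟧) :=
  comp ((shiftFunctorAdd' T.C d (-(((n + 1 : ℕ) : ℤ) * d)) (-((n : ℤ) * d))
    (by push_cast; ring)).hom.app F) (v⟦-(((n + 1 : ℕ) : ℤ) * d)⟧')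

/-- `W = v⁻¹ F` is the telescope (homotopy colimit) of `F ⟶ Σ^{-d} F ⟶ Σ^{-2d} F ⟶ …`. -/
def IsTelescope {F : T.C} {d : ℤ} (v : Hom (F⟦d⟧) F) (W : T.C) : Prop :=
  ∃ ι : ∀ n : ℕ, Hom (F⟦-((n : ℤ) * d)⟧) W, Vale.Agent.P251.S.IsTel (telStep v) ι

end Vale.Agent.P221
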