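import Vale.Agent.P221.H72.Defs

/-!
# P221: connective covers in a stable homotopy category
-/

open CategoryTheory MonoidalCategory Limits Pretriangulated
open Vale.Agent.P251.T Vale.Agent.P251.S Vale.Agent.P251.H Vale.Agent.P251.M
  Vale.Agent.P251.I Vale.Agent.P251.X

universe v u

set_option linter.unusedSectionVars false

namespace Vale.Agent.P221

variable {T : Type u} [Category.{v} T] [Preadditive T] [HasZeroObject T]
    [HasShift T ℤ] [∀ n : ℤ, (shiftFunctor T n).Additive] [Pretriangulated T] [IsTriangulated T]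
    [MonoidalCategory T] [SymmetricCategory T] [TensorTriangulated T] [MonoidalClosed T]
    [HasCoproducts.{0} T] [HasProducts.{0} T] [StableCat T]

/-! ### Homotopy groups -/

/-- shifts of maps out of spheres -/
theorem sphere_shift {X : T} {k l m : ℤ} (h : l + m = k) (z : (𝟙_ T)⟦k⟧ ⟶ X⟦m⟧) :
    ∃ x : (𝟙_ T)⟦l⟧ ⟶ X, z = ((shiftFunctorAdd' T l m k h).app (𝟙_ T)).hom ≫ x⟦m⟧' := by
  let e := (shiftFunctorAdd' T l m k h).app (𝟙_ T)
  obtain ⟨x, hx⟩ := (shiftFunctor T m).map_surjective (e.inv ≫ z)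
  exact ⟨x, by rw [hx]; exact (e.hom_inv_id_assoc z).symm⟩

theorem Above.mono {m n : ℤ} (h : m ≤ n) {X : T} (hX : Above m X) : Above n X :=
  fun k hk => hX k (h.trans hk)

theorem Above.shift {n : ℤ} {X : T} (hX : Above n X) (m q : ℤ) (h : n + m = q) :
    Above q (X⟦m⟧) := by
  intro k hk f
  obtain ⟨x, rfl⟩ := sphere_shift (l := k - m) (by ring) f
  rw [hX _ (by omega) x, Functor.map_zero, comp_zero]

theorem Above.ext {n : ℤ} {X Y Z : T} {f : X ⟶ Y} {g : Y ⟶ Z} {h : Z ⟶ X⟦(1 : ℤ)⟧}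
    (D : Dist f g h) (h₁ : Above n X) (h₃ : Above n Z) : Above n Y := by
  intro k hk y
  obtain ⟨x, rfl⟩ := D.lift₂ y (h₃ k hk _)
  rw [h₁ k hk x, zero_comp]

/-- the long exact sequence of homotopy groups at the third object -/
theorem les {X Y Z : T} {f : X ⟶ Y} {g : Y ⟶ Z} {h : Z ⟶ X⟦(1 : ℤ)⟧}
    (D : Dist f g h) {k l : ℤ} (hl : l + 1 = k) (z : (𝟙_ T)⟦k⟧ ⟶ Z) :
    ∃ x : (𝟙_ T)⟦l⟧ ⟶ X, x ≫ f = 0 ∧ (x = 0 → ∃ y : (𝟙_ T)⟦k⟧ ⟶ Y, y ≫ g = z) := by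
  obtain ⟨x, hx⟩ := sphere_shift hl (z ≫ h)
  refine ⟨x, ?_, ?_⟩
  · apply (shiftFunctor T (1 : ℤ)).map_injective
    rw [Functor.map_comp, Functor.map_zero]
    have h1 : (z ≫ h) ≫ f⟦(1 : ℤ)⟧' = 0 := by rw [Category.assoc, D.zero₃₁, comp_zero]
    rw [hx, Category.assoc] at h1
    rw [← cancel_epi ((shiftFunctorAdd' T l 1 k hl).app (𝟙_ T)).hom, comp_zero]
    exact h1
  · rintro rfl
    rw [Functor.map_zero, comp_zero] at hx
    exact D.lift₃ z hx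

/-- injectivity on homotopy groups if the homotopy of the cofibre vanishes -/
theorem inj_of_above {X Y Z : T} {f : X ⟶ Y} {g : Y ⟶ Z} {h : Z ⟶ X⟦(1 : ℤ)⟧}
    (D : Dist f g h) {n k : ℤ} (hZ : Above n Z) (hk : n ≤ k + 1) (x : (𝟙_ T)⟦k⟧ ⟶ X)
    (hx : x ≫ f = 0) : x = 0 := by
  obtain ⟨a, b, D'⟩ := Dist.invRot' D
  obtain ⟨y, rfl⟩ := D'.lift₂ x hx
  rw [hZ.shift (-1) (n - 1) (by ring) k (by omega) y, zero_comp]

theorem evIso_of_above {X Y Z : T} {f : X ⟶ Y} {g : Y ⟶ Z} {h : Z ⟶ X⟦(1 : ℤ)⟧}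
    (D : Dist f g h) {n : ℤ} (hZ : Above n Z) : EvIso n f := by
  intro k hk
  refine ⟨fun x y hxy => ?_, fun y => ?_⟩
  · rw [← sub_eq_zero]
    exact inj_of_above D hZ (by omega) _ (by
      rw [Preadditive.sub_comp, sub_eq_zero]; exact hxy)
  · exact D.lift₂ y (hZ k hk _)

theorem above_of_evIso {X Y Z : T} {f : X ⟶ Y} {g : Y ⟶ Z} {h : Z ⟶ X⟦(1 : ℤ)⟧}
    (D : Dist f g h) {n : ℤ} (hf : EvIso n f) : Above (n + 1) Z := by
  intro k hk z
  obtain ⟨x, hx, h1⟩ := les D (l := k - 1) (by ring) z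
  have h2 : x = 0 := (hf (k - 1) (by omega)).1 (by
    change x ≫ f = 0 ≫ f
    rw [hx, zero_comp])
  obtain ⟨y, rfl⟩ := h1 h2
  obtain ⟨x', rfl⟩ := (hf k (by omega)).2 y
  change (x' ≫ f) ≫ g = 0
  rw [Category.assoc, D.zero₁₂, comp_zero]

theorem EvIso.mono {X Y : T} {f : X ⟶ Y} {m n : ℤ} (h : m ≤ n) (hf : EvIso m f) : EvIso n f :=
  fun k hk => hf k (h.trans hk)

/-! ### Connective covers -/

theorem hom_eq_zero {n : ℤ} {A Y : T} (hA : BigCell T n A) (hY : Above n Y) (f : A ⟶ Y) :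
    f = 0 := by
  induction hA with
  | sphere k hk => exact hY k hk f
  | coprod X _ ih =>
    apply Sigma.hom_ext
    intro i
    rw [comp_zero]
    exact ih i _
  | ext Δ hΔ _ _ ih₁ ih₃ =>
    obtain ⟨g, hg⟩ := Triangle.yoneda_exact₂ Δ hΔ f (ih₁ _)
    rw [hg, ih₃ g, comp_zero]

theorem exists_kill' [LocallySmall.{0} T] (n : ℤ) (X : T) :
    ∃ (X' : T) (f : X ⟶ X'), CofIn (BigCell T (n + 1)) f ∧
    ∀ k : ℤ, n ≤ k → ∀ g : (𝟙_ T)⟦k⟧ ⟶ X, g ≫ f = 0 := by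
  let J : Type := Σ m : ℕ, Shrink.{0} ((𝟙_ T)⟦(n + (m : ℤ))⟧ ⟶ X)
  let Y : J → T := fun j => (𝟙_ T)⟦(n + (j.1 : ℤ))⟧
  let a : ∐ Y ⟶ X := Sigma.desc fun j : J => (equivShrink _).symm j.2
  obtain ⟨X', f, w, D⟩ := exists_cone a
  refine ⟨X', f, ⟨_, w, _, D.rot, ?_⟩, ?_⟩
  · exact (BigCell.coprod (n := n) Y fun j => BigCell.sphere _ (by omega)).shift 1 (n + 1) rfl
  · intro k hk g
    obtain ⟨m, rfl⟩ : ∃ m : ℕ, k = n + (m : ℤ) := ⟨(k - n).toNat, by omega⟩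
    have h1 : g = Sigma.ι Y ⟨m, equivShrink _ g⟩ ≫ a := by
      simp [a, Y]
    rw [h1, Category.assoc, D.zero₁₂, comp_zero]

/-- connective covers -/
theorem exists_cover [LocallySmall.{0} T] (n : ℤ) (X : T) :
    ∃ (A X' : T) (a : A ⟶ X) (f : X ⟶ X') (w : X' ⟶ A⟦(1 : ℤ)⟧),
      Dist a f w ∧ BigCell T n A ∧ Above n X' := by
  choose X' f h1 h2 using exists_kill' (T := T) n
  let E : ℕ → T := fun m => Nat.rec X (fun _ X => X' X) m
  let t : ∀ m, E m ⟶ E (m + 1) := fun m => f (E m)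
  let U : Tel t := tel t
  let u : ∀ m, X ⟶ E m := fun m => Nat.rec (𝟙 X) (fun m g => g ≫ t m) m
  have hu : ∀ m, u m ≫ t m = u (m + 1) := fun _ => rfl
  have hc : ∀ m, CofIn (BigCell T (n + 1)) (u m) := by
    intro m
    induction m with
    | zero => exact CofIn.of_isIso (bigCell_extClosed (n + 1)) (𝟙 X)
    | succ m ih =>
      rw [← hu]
      exact ih.comp (bigCell_extClosed (n + 1)) (h1 (E m))
  let Y : ℕ → T := fun _ => X
  let s : ∐ Y ⟶ ∐ Y := 𝟙 (∐ Y) - telShift (X := Y) (fun _ => 𝟙 X)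
  let s' : ∐ E ⟶ ∐ E := 𝟙 (∐ E) - telShift t
  let v : ∐ Y ⟶ ∐ E := Limits.Sigma.map u
  have comm : v ≫ s' = s ≫ v := by
    simp only [s, s', v]
    rw [Preadditive.sub_comp, Preadditive.comp_sub, Category.id_comp, Category.comp_id]
    congr 1
    refine Sigma.hom_ext _ _ fun m => ?_
    simp only [telShift, Sigma.ι_desc_assoc, Sigma.ι_map_assoc, Category.assoc,
      Sigma.ι_map, Sigma.ι_desc]
    rw [← Category.assoc, hu]
    exact (Category.id_comp _).symm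
  obtain ⟨w1, D1⟩ := isTel_const X
  obtain ⟨w2, D2⟩ := U.isTel
  choose C c c' DC hC using hc
  have DC' := Dist.coprod DC
  have hC' : BigCell T (n + 1) (∐ C) := BigCell.coprod C hC
  obtain ⟨G, γ, γ', DG⟩ := exists_cone (s ≫ v)
  obtain ⟨m₁, m₃, -, -, -, -, O1⟩ := exists_octa (rfl : s ≫ v = s ≫ v) D1 DC' DG
  obtain ⟨n₁, n₃, -, -, -, -, O2⟩ := exists_octa comm DC' D2 DG
  have hφ : CofIn (BigCell T (n + 1)) (m₁ ≫ n₃) :=
    CofIn.comp (bigCell_extClosed (n + 1)) ⟨_, _, _, O1, hC'⟩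
      ⟨_, _, _, O2.rot, (hC'.shift 1 (n + 2) (by ring)).mono (by omega)⟩
  obtain ⟨Z, g, h, D, hZ⟩ := hφ
  obtain ⟨a, b, D'⟩ := Dist.invRot' D
  refine ⟨_, _, a, m₁ ≫ n₃, b, D', hZ.shift (-1) n (by ring), ?_⟩
  intro k hk g
  obtain ⟨m, x, rfl⟩ := U.exists_factor (cpt_sphere k) g
  rw [← U.w, ← Category.assoc, h2 (E m) k hk x, zero_comp]

theorem conn_of_bigCell (F : SpaceFunctor T) {n : ℤ} {X : T} (hX : BigCell T n X) : Conn n X :=
  hX.conn (unit_conn F) (fun Y k f => StableCat.compact k Y f)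

theorem bigCell_of_conn [LocallySmall.{0} T] (F : SpaceFunctor T) {n : ℤ} {X : T}
    (hX : Conn n X) : BigCell T n X := by
  obtain ⟨A, X', a, f, w, D, hA, hX'⟩ := exists_cover n X
  have hA' : Conn n A := conn_of_bigCell F hA
  have h1 : Conn n X' := Conn.ext₃ _ D hX (hA'.mono (by omega))
  have h2 : IsZero X' := StableCat.generator X' fun k g => by
    rcases lt_or_ge k n with h | h
    · exact h1 k h g
    · exact hX' k h g
  have h3 : IsIso a := (Triangle.distinguished_iff_of_isZero₃ _ h2).1 D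
  exact BigCell.of_iso (asIso a) hA

end Vale.Agent.P221
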